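import Crest.Agent.R322.FrIter
import Mathlib
import Crest.Prelude.Def_StreamLearn
import Crest.Agent.R322.Iface
import Crest.Agent.R322.Sphere

-- ▼ part R322/FrLearner
section

set_option autoImplicit false

namespace Crest.Agent.R322

open MeasureTheory Crest.StreamLearn
open scoped ENNReal

section Learner

variable {d T M : ℕ} (L : RLearner d T M)

/-- step function of a learner with fixed seed -/
noncomputable def stepL (ω : L.Ω) (t : ℕ) (st : L.St × Option ℕ) (x : E d) (y : ℝ) :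
    L.St × Option ℕ :=
  if h : t < T then
    if st.2.isSome then st else
      if (L.trans ⟨t, h⟩ ω st.1 x y).2
      then ((L.trans ⟨t, h⟩ ω st.1 x y).1, some (t + 1))
      else ((L.trans ⟨t, h⟩ ω st.1 x y).1, none)
  else st

/-- initial run state -/
noncomputable def initL (ω : L.Ω) : L.St × Option ℕ :=
  (L.init ω, if L.stopFirst ω then some 0 else none)

/-- terminal payoff -/
noncomputable def gL (ε : ℝ) (ω : L.Ω) (st : L.St × Option ℕ) (s : E d) : ℝ≥0∞ :=
  Set.indicator {s : E d | Real.arccos (inner ℝ (L.out (st.2.getD T) ω st.1) s) ≤ ε} 1 s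

lemma foldl_eq_runY (ω : L.Ω) (n : ℕ) : ∀ (t : ℕ) (st : L.St × Option ℕ) (X : Fin n → E d)
    (Y : Fin n → ℝ),
    (List.finRange n).foldl (fun st i => stepL L ω (t + i.val) st (X i) (Y i)) st
      = runY (stepL L ω) n t st X Y := by
  induction n with
  | zero => intro t st X Y; simp [runY]
  | succ n ih =>
    intro t st X Y
    rw [List.finRange_succ, List.foldl_cons, List.foldl_map, runY, ← ih]
    simp only [Fin.val_zero, add_zero, Fin.val_succ]
    congr 1
    funext st i
    rw [show t + (i.val + 1) = t + 1 + i.val by ring]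

lemma run_eq (ω : L.Ω) (s : E d) (xs : Fin T → E d) :
    L.run ω s xs = runY (stepL L ω) T 0 (initL L ω) xs (ms xs s) := by
  rw [← foldl_eq_runY]
  unfold RLearner.run initL
  congr 1
  funext st t
  unfold stepL
  rw [dif_pos (by simpa using t.isLt)]
  have : (⟨0 + t.val, by simpa using t.isLt⟩ : Fin T) = t := by
    ext; simp
  rw [this]
  simp [ms]

instance instMSt : MeasurableSpace (L.St × Option ℕ) := ⊤
instance : DiscreteMeasurableSpace (L.St × Option ℕ) := ⟨fun _ => trivial⟩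
instance : Countable (L.St × Option ℕ) := by
  haveI := L.fin
  infer_instance

lemma measurable_stepL : letI := L.mΩ
    ∀ (t : ℕ) (st : L.St × Option ℕ), Measurable fun p : L.Ω × (E d × ℝ) =>
      stepL L p.1 t st p.2.1 p.2.2 := by
  letI := L.mΩ
  intro t st
  unfold stepL
  by_cases h : t < T
  · simp only [h, dite_true]
    by_cases h2 : st.2.isSome
    · simp only [h2, if_true]
      exact measurable_const
    · simp only [h2]
      have h3 := L.trans_measurable ⟨t, h⟩ st.1
      simp only [Bool.false_eq_true, if_false]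
      refine Measurable.ite ?_ ?_ ?_
      · exact h3.2 (measurableSet_singleton true)
      · exact (measurable_from_top (f := fun q : L.St => (q, some (t + 1)))).comp h3.1
      · exact (measurable_from_top (f := fun q : L.St => (q, (none : Option ℕ)))).comp h3.1
  · simp only [h, dite_false]
    exact measurable_const

lemma measurable_initL : letI := L.mΩ
    Measurable (initL L) := by
  letI := L.mΩ
  unfold initL
  letI : MeasurableSpace L.St := ⊤
  have h1 : Measurable L.init := L.init_measurable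
  have h2 : Measurable L.stopFirst := L.stopFirst_measurable
  have : (fun ω => (L.init ω, if L.stopFirst ω = true then some 0 else none))
      = fun ω => if L.stopFirst ω = true then (L.init ω, some 0) else (L.init ω, none) := by
    funext ω
    split_ifs <;> rfl
  rw [this]
  refine Measurable.ite ?_ ?_ ?_
  · exact h2 (measurableSet_singleton true)
  · exact (measurable_from_top (f := fun q : L.St => (q, some 0))).comp h1
  · exact (measurable_from_top (f := fun q : L.St => (q, (none : Option ℕ)))).comp h1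

lemma measurable_gL_joint (ε : ℝ) : letI := L.mΩ
    ∀ st, Measurable fun p : L.Ω × E d => gL L ε p.1 st p.2 := by
  letI := L.mΩ
  intro st
  have h1 : Measurable fun p : L.Ω × E d =>
      Real.arccos (inner ℝ (L.out (st.2.getD T) p.1 st.1) p.2) := by
    refine Real.continuous_arccos.measurable.comp ?_
    exact ((L.out_measurable (st.2.getD T) st.1).comp measurable_fst).inner measurable_snd
  have h2 : MeasurableSet {p : L.Ω × E d |
      Real.arccos (inner ℝ (L.out (st.2.getD T) p.1 st.1) p.2) ≤ ε} :=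
    measurableSet_le h1 measurable_const
  have h3 : (fun p : L.Ω × E d => gL L ε p.1 st p.2) = Set.indicator {p : L.Ω × E d |
      Real.arccos (inner ℝ (L.out (st.2.getD T) p.1 st.1) p.2) ≤ ε} 1 := by
    funext p
    unfold gL
    by_cases h : Real.arccos (inner ℝ (L.out (st.2.getD T) p.1 st.1) p.2) ≤ ε
    · rw [Set.indicator_of_mem (by exact h), Set.indicator_of_mem (by exact h)]; rfl
    · rw [Set.indicator_of_notMem (by exact h), Set.indicator_of_notMem (by exact h)]
  rw [h3]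
  exact measurable_one.indicator h2

lemma gL_le_one (ε : ℝ) (ω : L.Ω) (st : L.St × Option ℕ) (s : E d) : gL L ε ω st s ≤ 1 := by
  unfold gL
  exact Set.indicator_le_self' (fun _ _ => zero_le_one) s

/-- payoff of a whole run, as a function of signal, seed, samples -/
noncomputable def payL (ε : ℝ) (s : E d) (ω : L.Ω) (xs : Fin T → E d) : ℝ≥0∞ :=
  gL L ε ω (runY (stepL L ω) T 0 (initL L ω) xs (ms xs s)) s

lemma payL_eq (ε : ℝ) (s : E d) (ω : L.Ω) (xs : Fin T → E d) :
    payL L ε s ω xs =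
      Set.indicator {s : E d | Real.arccos (inner ℝ (L.output ω s xs) s) ≤ ε} 1 s := by
  unfold payL gL
  rw [← run_eq]
  rfl

lemma measurable_payL (ε : ℝ) : letI := L.mΩ
    Measurable fun p : E d × (L.Ω × (Fin T → E d)) => payL L ε p.1 p.2.1 p.2.2 := by
  letI := L.mΩ
  have h1 := measurable_runY (fun ω => stepL L ω) (measurable_stepL L) T 0
  have h2 : Measurable fun q : E d × (L.Ω × (Fin T → E d)) =>
      (q.2.1, (initL L q.2.1, (q.2.2, ms q.2.2 q.1))) := by
    refine (measurable_fst.comp measurable_snd).prodMk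
      (((measurable_initL L).comp (measurable_fst.comp measurable_snd)).prodMk
      ((measurable_snd.comp measurable_snd).prodMk ?_))
    exact measurable_ms.comp ((measurable_snd.comp measurable_snd).prodMk measurable_fst)
  have h3 := h1.comp h2
  have h4 : Measurable fun q : (L.St × Option ℕ) × (L.Ω × E d) => gL L ε q.2.1 q.1 q.2.2 :=
    measurable_from_prod_countable_right fun st => measurable_gL_joint L ε st
  have h6 : Measurable fun q : E d × (L.Ω × (Fin T → E d)) => (q.2.1, q.1) :=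
    (measurable_fst.comp measurable_snd).prodMk measurable_fst
  have h7 := h3.prodMk h6
  have h8 := h4.comp h7
  exact h8


end Learner

section Fub

/-- abstract Fubini -/
lemma fub {Sp Em Om Xs : Type} [MeasurableSpace Sp] [MeasurableSpace Em]
    [MeasurableSpace Om] [MeasurableSpace Xs] (σ : Measure Sp) [IsFiniteMeasure σ]
    (c : Sp → Em) (hc : Measurable c) (ρ : Measure Om) [IsProbabilityMeasure ρ]
    (γ : Measure Xs) [IsProbabilityMeasure γ]
    (f : Em → Om → Xs → ℝ≥0∞) (hf : Measurable fun p : Em × (Om × Xs) => f p.1 p.2.1 p.2.2)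
    (A : Set (Sp × (Om × Xs))) (hfA : ∀ s ω x, f (c s) ω x = A.indicator (fun _ => 1) (s, (ω, x)))
    (a : ℝ) (h : a ≤ (σ.prod (ρ.prod γ)).real A) :
    ∃ ω, ENNReal.ofReal a ≤ ∫⁻ e, ∫⁻ x, f e ω x ∂γ ∂(σ.map c) := by
  have hfS : Measurable fun p : Sp × (Om × Xs) => f (c p.1) p.2.1 p.2.2 := by
    have h6 : Measurable fun p : Sp × (Om × Xs) => (c p.1, p.2) :=
      (hc.comp measurable_fst).prodMk measurable_snd
    exact hf.comp h6
  have hAm : MeasurableSet A := by
    have h8 := hfS (measurableSet_singleton (1 : ℝ≥0∞))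
    convert h8 using 1
    ext p
    rcases p with ⟨s, ω, x⟩
    simp only [Set.mem_preimage, Set.mem_singleton_iff, hfA]
    by_cases hp : (s, (ω, x)) ∈ A
    · simp [hp]
    · simp [hp]
  have hmass : (σ.prod (ρ.prod γ)) A = ∫⁻ ω, ∫⁻ e, ∫⁻ x, f e ω x ∂γ ∂(σ.map c) ∂ρ := by
    have e0 : (σ.prod (ρ.prod γ)) A = ∫⁻ p, f (c p.1) p.2.1 p.2.2 ∂(σ.prod (ρ.prod γ)) := by
      rw [← lintegral_indicator_one hAm]
      refine lintegral_congr fun p => ?_
      rcases p with ⟨s, ω, x⟩
      simp only [hfA]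
      rfl
    rw [e0, lintegral_prod _ hfS.aemeasurable]
    have e1 : ∀ s : Sp, ∫⁻ y : Om × Xs, f (c s) y.1 y.2 ∂(ρ.prod γ)
        = ∫⁻ ω, ∫⁻ x, f (c s) ω x ∂γ ∂ρ := by
      intro s
      rw [lintegral_prod]
      exact (hfS.comp (measurable_prodMk_left (x := s))).aemeasurable
    have e2 : ∀ s : Sp, ∫⁻ y : Om × Xs, f (c (s, y).1) (s, y).2.1 (s, y).2.2 ∂(ρ.prod γ)
        = ∫⁻ ω, ∫⁻ x, f (c s) ω x ∂γ ∂ρ := fun s => e1 s
    simp_rw [e1]
    have hG2 : Measurable fun q : (Sp × Om) × Xs => f (c q.1.1) q.1.2 q.2 :=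
      hfS.comp ((measurable_fst.comp measurable_fst).prodMk
        ((measurable_snd.comp measurable_fst).prodMk measurable_snd))
    have hG3 := hG2.lintegral_prod_right' (ν := γ)
    rw [lintegral_lintegral_swap (by exact hG3.aemeasurable)]
    refine lintegral_congr fun ω => ?_
    rw [lintegral_map _ hc]
    have hE : Measurable fun q : Em × Xs => f q.1 ω q.2 :=
      hf.comp (measurable_fst.prodMk (measurable_const.prodMk measurable_snd))
    exact hE.lintegral_prod_right'
  have hfin : (σ.prod (ρ.prod γ)) A ≠ ⊤ := measure_ne_top _ _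
  have h1 : ENNReal.ofReal a ≤ (σ.prod (ρ.prod γ)) A := ENNReal.ofReal_le_of_le_toReal h
  rw [hmass] at h1 hfin
  obtain ⟨ω, hω⟩ := exists_lintegral_le hfin
  exact ⟨ω, h1.trans hω⟩

end Fub

section Learner2

variable {d T M : ℕ} (L : RLearner d T M)

/-- Fubini over the seed -/
lemma exists_seed (ε : ℝ) (h : 2 / 3 ≤ L.successProb ε) :
    ∃ ω, ENNReal.ofReal (2 / 3) ≤
      (sphE d).withDensity (Vf (stepL L ω) (gL L ε ω) T 0 (initL L ω)) Set.univ := by
  letI := L.mΩ
  haveI : IsProbabilityMeasure L.ρ := L.prob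
  haveI : IsProbabilityMeasure (Measure.pi fun _ : Fin T => ProbabilityTheory.stdGaussian (E d)) :=
    inferInstance
  unfold RLearner.successProb at h
  obtain ⟨ω, hω⟩ := fub (sphereUniform d) (fun s : Sphere d => (s : E d)) measurable_subtype_coe
    L.ρ (Measure.pi fun _ : Fin T => ProbabilityTheory.stdGaussian (E d))
    (payL L ε) (measurable_payL L ε) _ (fun s ω x => by
      rw [payL_eq]
      by_cases hh : Real.arccos (inner ℝ (L.output ω (s : E d) x) (s : E d)) ≤ ε
      · rw [Set.indicator_of_mem (by exact hh), Set.indicator_of_mem (by exact hh)]; rfl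
      · rw [Set.indicator_of_notMem (by exact hh), Set.indicator_of_notMem (by exact hh)])
    (2 / 3) h
  refine ⟨ω, hω.trans ?_⟩
  rw [withDensity_apply _ MeasurableSet.univ, Measure.restrict_univ]
  exact le_of_eq rfl

end Learner2

end Crest.Agent.R322
end

-- ▼ part R322/FrFinal
section

set_option autoImplicit false

namespace Crest.Agent.R322

open MeasureTheory Crest.StreamLearn
open scoped ENNReal

lemma measurable_gL' {d T M : ℕ} (L : RLearner d T M) (ε : ℝ) (ω : L.Ω)
    (st : L.St × Option ℕ) : Measurable (gL L ε ω st) := by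
  have hS : MeasurableSet {s : E d |
      Real.arccos (inner ℝ (L.out (st.2.getD T) ω st.1) s) ≤ ε} := by
    refine measurableSet_le ?_ measurable_const
    exact Real.continuous_arccos.measurable.comp (measurable_const.inner measurable_id)
  exact measurable_one.indicator hS

lemma measurable_stepL' {d T M : ℕ} (L : RLearner d T M) (ω : L.Ω)
    (t : ℕ) (st : L.St × Option ℕ) :
    Measurable fun p : E d × ℝ => stepL L ω t st p.1 p.2 := by
  letI := L.mΩ
  have h2 : Measurable fun p : E d × ℝ => (ω, p) := measurable_const.prodMk measurable_id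
  exact (measurable_stepL L t st).comp h2

section Learner

variable {d T M : ℕ} (L : RLearner d T M)

lemma stepL_idle (ω : L.Ω) {t : ℕ} (ht : T ≤ t) (st : L.St × Option ℕ) (x : E d) (y : ℝ) :
    stepL L ω t st x y = st := by
  unfold stepL
  rw [dif_neg (by omega)]

lemma stepL_stopped (ω : L.Ω) (t : ℕ) {st : L.St × Option ℕ} (hst : st.2.isSome = true)
    (x : E d) (y : ℝ) : stepL L ω t st x y = st := by
  unfold stepL
  split_ifs <;> rfl

lemma runY_idle (ω : L.Ω) (n : ℕ) : ∀ {t : ℕ} (_ : T ≤ t) (st : L.St × Option ℕ)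
    (X : Fin n → E d) (Y : Fin n → ℝ), runY (stepL L ω) n t st X Y = st := by
  induction n with
  | zero => intro t ht st X Y; rfl
  | succ n ih =>
    intro t ht st X Y
    rw [runY, stepL_idle L ω ht, ih (by omega)]

lemma runY_stopped (ω : L.Ω) (n : ℕ) : ∀ (t : ℕ) {st : L.St × Option ℕ}
    (_ : st.2.isSome = true) (X : Fin n → E d) (Y : Fin n → ℝ),
    runY (stepL L ω) n t st X Y = st := by
  induction n with
  | zero => intro t st hst X Y; rfl
  | succ n ih =>
    intro t st hst X Y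
    rw [runY, stepL_stopped L ω t hst, ih _ hst]

lemma stepL_cases (ω : L.Ω) (t : ℕ) (st : L.St × Option ℕ) (hst : st.2 = none)
    (x : E d) (y : ℝ) : (stepL L ω t st x y).2 = none ∨ (stepL L ω t st x y).2 = some (t + 1) := by
  unfold stepL
  split_ifs with h1 h2 h3
  · simp [hst] at h2
  · right; rfl
  · left; rfl
  · left; exact hst

lemma runY_range (ω : L.Ω) (n : ℕ) : ∀ (t : ℕ) (st : L.St × Option ℕ)
    (_ : st.2 = none) (X : Fin n → E d) (Y : Fin n → ℝ),
    (runY (stepL L ω) n t st X Y).2 = none ∨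
      ∃ k, (runY (stepL L ω) n t st X Y).2 = some k ∧ t < k ∧ k ≤ t + n := by
  induction n with
  | zero => intro t st hst X Y; left; exact hst
  | succ n ih =>
    intro t st hst X Y
    rw [runY]
    rcases stepL_cases L ω t st hst (X 0) (Y 0) with h | h
    · rcases ih (t + 1) _ h (fun i => X i.succ) (fun i => Y i.succ) with h1 | ⟨k, h1, h2, h3⟩
      · left; exact h1
      · right; exact ⟨k, h1, by omega, by omega⟩
    · right
      rw [runY_stopped L ω n (t + 1) (by rw [h]; rfl)]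
      exact ⟨t + 1, h, by omega, by omega⟩

lemma coding (ω : L.Ω) (B t : ℕ) (st : L.St × Option ℕ) :
    ∃ (J : Type) (_ : Fintype J) (enc : L.St × Option ℕ → J) (dec : J → L.St × Option ℕ),
      Fintype.card J ≤ 2 ^ M * (B + 1) ∧
      ∀ X Y, dec (enc (runY (stepL L ω) B t st X Y)) = runY (stepL L ω) B t st X Y := by
  letI := L.fin
  by_cases hst : st.2.isSome = true
  · refine ⟨Unit, inferInstance, fun _ => (), fun _ => st, ?_, ?_⟩
    · simp only [Fintype.card_unit]
      exact Nat.one_le_iff_ne_zero.2 (by positivity)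
    · intro X Y
      rw [runY_stopped L ω B t hst]
  · have hst2 : st.2 = none := by
      cases h : st.2 with
      | none => rfl
      | some k => simp [h] at hst
    refine ⟨L.St × Option (Fin B), inferInstance,
      fun r => (r.1, match r.2 with
        | none => none
        | some k => if h : k - (t + 1) < B then some ⟨k - (t + 1), h⟩ else none),
      fun j => (j.1, j.2.map fun i => t + 1 + i.val), ?_, ?_⟩
    · rw [Fintype.card_prod, Fintype.card_option, Fintype.card_fin]
      exact Nat.mul_le_mul_right _ L.card_le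
    · intro X Y
      rcases runY_range L ω B t st hst2 X Y with h | ⟨k, h, h1, h2⟩
      · ext1
        · rfl
        · simp [h]
      · ext1
        · rfl
        · have h3 : k - (t + 1) < B := by omega
          simp only [h]
          simp only [h3, dite_true, Option.map_some]
          congr 1
          omega

lemma Vf_horizon (ε : ℝ) (ω : L.Ω) (m : ℕ) (s : E d) :
    Vf (stepL L ω) (gL L ε ω) (T + m) 0 (initL L ω) s
      = Vf (stepL L ω) (gL L ε ω) T 0 (initL L ω) s := by
  rw [Vf_add (stepL L ω) (measurable_stepL' L ω) (gL L ε ω) (measurable_gL' L ε ω)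
        T m 0 (initL L ω) s]
  unfold Vf
  refine lintegral_congr fun X => ?_
  have : ∀ X' : Fin m → E d, gL L ε ω (runY (stepL L ω) m (0 + T)
      (runY (stepL L ω) T 0 (initL L ω) X (ms X s)) X' (ms X' s)) s =
      gL L ε ω (runY (stepL L ω) T 0 (initL L ω) X (ms X s)) s := by
    intro X'
    rw [runY_idle L ω m (by omega)]
  simp_rw [this]
  simp

end Learner

lemma arccos_dist {d : ℕ} (o : E d) (ho : ‖o‖ = 1) (s : E d) (hs : ‖s‖ = 1) (ε : ℝ)
    (hε : ε ≤ 1) (h : Real.arccos (inner ℝ o s) ≤ ε) : s ∈ Metric.closedBall o ε := by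
  have hε0 : 0 ≤ ε := (Real.arccos_nonneg _).trans h
  have h1 : -1 ≤ inner ℝ o s := by
    have := abs_real_inner_le_norm o s
    rw [ho, hs] at this
    exact (abs_le.1 (by simpa using this)).1
  have h2 : inner ℝ o s ≤ 1 := by
    have := abs_real_inner_le_norm o s
    rw [ho, hs] at this
    exact (abs_le.1 (by simpa using this)).2
  have h3 : Real.cos ε ≤ inner ℝ o s := by
    rw [← Real.cos_arccos h1 h2]
    exact Real.cos_le_cos_of_nonneg_of_le_pi (Real.arccos_nonneg _)
      (by linarith [Real.pi_gt_three]) h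
  have h4 : 1 - ε ^ 2 / 2 ≤ Real.cos ε := Real.one_sub_sq_div_two_le_cos
  rw [Metric.mem_closedBall, dist_eq_norm]
  have h5 : ‖s - o‖ ^ 2 = 2 - 2 * inner ℝ o s := by
    rw [norm_sub_sq_real, ho, hs, real_inner_comm]
    ring
  have h6 : ‖s - o‖ ^ 2 ≤ ε ^ 2 := by rw [h5]; linarith
  exact abs_le_of_sq_le_sq' h6 hε0 |>.2

/-- base case: the terminal measures are Frostman -/
lemma frost_base {d T M : ℕ} (L : RLearner d T M) (C : ℝ) (η : ℕ) (hη : η ≤ d - 1)
    (hcap : ∀ (x : E d) (r : ℝ), 0 < r →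
      sphE d (Metric.closedBall x r) ≤ ENNReal.ofReal C ^ d * ENNReal.ofReal r ^ (d - 1))
    (ε : ℝ) (hε : 0 < ε) (hε1 : ε ≤ 1) (ω : L.Ω) (st : L.St × Option ℕ) :
    Frost η (ENNReal.ofReal C ^ d * ENNReal.ofReal ε ^ (d - 1 - η))
      ((sphE d).withDensity (gL L ε ω st)) := by
  intro x r hr
  set o := L.out (st.2.getD T) ω st.1 with ho
  have hS : MeasurableSet {s : E d | Real.arccos (inner ℝ o s) ≤ ε} := by
    refine measurableSet_le ?_ measurable_const
    exact Real.continuous_arccos.measurable.comp (measurable_const.inner measurable_id)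
  have h1 : (sphE d).withDensity (gL L ε ω st) (Metric.closedBall x r) =
      sphE d ({s : E d | Real.arccos (inner ℝ o s) ≤ ε} ∩ Metric.closedBall x r) := by
    rw [withDensity_apply _ Metric.isClosed_closedBall.measurableSet]
    unfold gL
    rw [← ho, lintegral_indicator_one hS, Measure.restrict_apply hS]
  have h2 : sphE d {s : E d | Real.arccos (inner ℝ o s) ≤ ε} ≤ sphE d (Metric.closedBall o ε) := by
    unfold sphE
    rw [Measure.map_apply measurable_subtype_coe hS,
      Measure.map_apply measurable_subtype_coe Metric.isClosed_closedBall.measurableSet]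
    refine measure_mono fun s hs => ?_
    have hs2 : ‖(s : E d)‖ = 1 := by simpa using s.2
    exact arccos_dist o (L.out_unit _ _ _) _ hs2 ε hε1 hs
  rw [h1]
  have e : d - 1 = (d - 1 - η) + η := by omega
  rcases le_total r ε with h | h
  · calc sphE d ({s : E d | Real.arccos (inner ℝ o s) ≤ ε} ∩ Metric.closedBall x r)
        ≤ sphE d (Metric.closedBall x r) := measure_mono Set.inter_subset_right
      _ ≤ ENNReal.ofReal C ^ d * ENNReal.ofReal r ^ (d - 1) := hcap x r hr
      _ = ENNReal.ofReal C ^ d * (ENNReal.ofReal r ^ (d - 1 - η) * ENNReal.ofReal r ^ η) := by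
          rw [← pow_add, ← e]
      _ ≤ ENNReal.ofReal C ^ d * (ENNReal.ofReal ε ^ (d - 1 - η) * ENNReal.ofReal r ^ η) := by
          gcongr
      _ = _ := by ring
  · calc sphE d ({s : E d | Real.arccos (inner ℝ o s) ≤ ε} ∩ Metric.closedBall x r)
        ≤ sphE d {s : E d | Real.arccos (inner ℝ o s) ≤ ε} := measure_mono Set.inter_subset_left
      _ ≤ sphE d (Metric.closedBall o ε) := h2
      _ ≤ ENNReal.ofReal C ^ d * ENNReal.ofReal ε ^ (d - 1) := hcap o ε hε
      _ = ENNReal.ofReal C ^ d * (ENNReal.ofReal ε ^ (d - 1 - η) * ENNReal.ofReal ε ^ η) := by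
          rw [← pow_add, ← e]
      _ ≤ ENNReal.ofReal C ^ d * (ENNReal.ofReal ε ^ (d - 1 - η) * ENNReal.ofReal r ^ η) := by
          gcongr
      _ = _ := by ring

lemma sphE_univ_ball {d : ℕ} (f : E d → ℝ≥0∞) :
    (sphE d).withDensity f Set.univ ≤ (sphE d).withDensity f (Metric.closedBall 0 1) := by
  have h0 : sphE d (Metric.closedBall 0 1)ᶜ = 0 := by
    unfold sphE
    rw [Measure.map_apply measurable_subtype_coe Metric.isClosed_closedBall.measurableSet.compl]
    have : ((fun s : Sphere d => (s : E d)) ⁻¹' (Metric.closedBall 0 1)ᶜ) = ∅ := by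
      ext s
      have hs2 : ‖(s : E d)‖ = 1 := by simpa using s.2
      simp [hs2]
    rw [this, measure_empty]
  have h1 : (sphE d).withDensity f (Metric.closedBall 0 1)ᶜ = 0 :=
    withDensity_absolutelyContinuous _ _ h0
  calc (sphE d).withDensity f Set.univ
      ≤ (sphE d).withDensity f (Metric.closedBall 0 1)
        + (sphE d).withDensity f (Metric.closedBall 0 1)ᶜ := by
        rw [← Set.union_compl_self (Metric.closedBall (0 : E d) 1)]
        exact measure_union_le _ _
    _ = _ := by rw [h1, add_zero]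

end Crest.Agent.R322
end

-- ▼ part R322/FrNum
section

set_option autoImplicit false

namespace Crest.Agent.R322

open MeasureTheory Crest.StreamLearn
open scoped ENNReal

instance sphE_finite (d : ℕ) : IsFiniteMeasure (sphE d) := by
  unfold sphE
  infer_instance

/-- the real inequality obtained from the iteration -/
lemma success_real {C₁ C₂ : ℝ} (hC₁ : 1 ≤ C₁) (hC₂ : 1 ≤ C₂) {d M T : ℕ} (hd : 16 ≤ d)
    (hcap : ∀ (x : E d) (r : ℝ), 0 < r →
      sphE d (Metric.closedBall x r) ≤ ENNReal.ofReal C₁ ^ d * ENNReal.ofReal r ^ (d - 1))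
    (hblock : BlockBound d (bl d) (et d)
      (fun n => ENNReal.ofReal C₂ ^ d * (n : ℝ≥0∞) ^ ((1 : ℝ) / (bl d : ℝ))))
    (ε : ℝ) (hε : 0 < ε) (hε1 : ε ≤ 1) (L : RLearner d T M) (hL : 2 / 3 ≤ L.successProb ε) :
    (2 : ℝ) / 3 ≤ C₁ ^ d * ε ^ (d - 1 - et d) *
      (C₂ ^ d * ((2 ^ M * (bl d + 1) : ℕ) : ℝ) ^ ((1 : ℝ) / (bl d : ℝ))) ^ (T / bl d + 1) := by
  obtain ⟨ω, hω⟩ := exists_seed L ε hL
  have hb : 0 < bl d := by unfold bl; omega
  set K := T / bl d + 1 with hK
  have hKT : T ≤ K * bl d := by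
    have := Nat.lt_div_mul_add (a := T) hb
    rw [hK, add_mul, one_mul]
    omega
  obtain ⟨m, hm⟩ := Nat.exists_eq_add_of_le hKT
  have hΓ : Monotone (fun n : ℕ => ENNReal.ofReal C₂ ^ d * (n : ℝ≥0∞) ^ ((1 : ℝ) / (bl d : ℝ))) := by
    intro a b hab
    have : (a : ℝ≥0∞) ≤ (b : ℝ≥0∞) := by exact_mod_cast hab
    dsimp only
    gcongr
  have hη : et d ≤ d - 1 := by unfold et; omega
  have h := frost_iter (stepL L ω) (measurable_stepL' L ω) (gL L ε ω) (measurable_gL' L ε ω)
    (gL_le_one L ε ω) (sphE d) (bl d) (et d) _ hΓ hblock (2 ^ M * (bl d + 1))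
    (fun t st => coding L ω (bl d) t st) _
    (fun st => frost_base L C₁ (et d) hη hcap ε hε hε1 ω st) K 0 (initL L ω) 0 1 one_pos
  have e1 : Vf (stepL L ω) (gL L ε ω) (K * bl d) 0 (initL L ω)
      = Vf (stepL L ω) (gL L ε ω) T 0 (initL L ω) := by
    funext s
    rw [hm]
    exact Vf_horizon L ε ω m s
  rw [e1] at h
  have h2 := hω.trans ((sphE_univ_ball _).trans h)
  have hC₁0 : 0 ≤ C₁ := by linarith
  have hC₂0 : 0 ≤ C₂ := by linarith
  have e2 : ENNReal.ofReal C₁ ^ d * ENNReal.ofReal ε ^ (d - 1 - et d) *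
      (ENNReal.ofReal C₂ ^ d * (((2 ^ M * (bl d + 1) : ℕ)) : ℝ≥0∞) ^ ((1 : ℝ) / (bl d : ℝ))) ^ K *
        ENNReal.ofReal 1 ^ et d =
      ENNReal.ofReal (C₁ ^ d * ε ^ (d - 1 - et d) *
      (C₂ ^ d * ((2 ^ M * (bl d + 1) : ℕ) : ℝ) ^ ((1 : ℝ) / (bl d : ℝ))) ^ K) := by
    rw [ENNReal.ofReal_one, one_pow, mul_one]
    have e3 : (((2 ^ M * (bl d + 1) : ℕ)) : ℝ≥0∞) ^ ((1 : ℝ) / (bl d : ℝ))
        = ENNReal.ofReal (((2 ^ M * (bl d + 1) : ℕ) : ℝ) ^ ((1 : ℝ) / (bl d : ℝ))) := by
      rw [← ENNReal.ofReal_rpow_of_nonneg (by positivity) (by positivity),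
        ENNReal.ofReal_natCast]
    rw [e3, ← ENNReal.ofReal_pow hC₁0, ← ENNReal.ofReal_pow hε.le, ← ENNReal.ofReal_pow hC₂0,
      ← ENNReal.ofReal_mul (by positivity), ← ENNReal.ofReal_mul (by positivity),
      ← ENNReal.ofReal_pow (by positivity), ← ENNReal.ofReal_mul (by positivity)]
  rw [e2] at h2
  exact (ENNReal.ofReal_le_ofReal_iff (by positivity)).1 h2

/-- S0499 from the three components. -/
theorem final_of (hB : BlockLemma) (hC : CapBound) (hS : SmallT) :
    ∀ A : ℝ, 0 < A → ∃ c : ℝ, 0 < c ∧ ∃ d₀ : ℕ, ∀ d ≥ d₀, ∀ (M T : ℕ),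
      (M : ℝ) ≤ A * (d : ℝ) ^ 2 → ∀ ε : ℝ, 0 < ε → ε ≤ 1 / 10 →
        ∀ L : Crest.StreamLearn.RLearner d T M,
          2 / 3 ≤ L.successProb ε → c * d * Real.log (1 / ε) ≤ T := by
  intro A hA
  obtain ⟨C₂, hC₂, d₂, hB⟩ := hB
  obtain ⟨C₁, hC₁, d₁, hC⟩ := hC
  obtain ⟨d₃, hS⟩ := hS
  set c₁ : ℝ := Real.log C₁ + 1 with hc₁
  set c₂ : ℝ := Real.log C₂ + 16 * A + 1 with hc₂
  have hl1 : 0 ≤ Real.log C₁ := Real.log_nonneg hC₁
  have hl2 : 0 ≤ Real.log C₂ := Real.log_nonneg hC₂
  have hc₁0 : 1 ≤ c₁ := by linarith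
  have hc₂0 : 1 ≤ c₂ := by linarith
  refine ⟨min (1 / (32 * (c₁ + c₂))) (1 / (64 * c₂)), by positivity,
    max (max d₁ d₂) (max d₃ 16), ?_⟩
  intro d hd M T hM ε hε hε1 L hL
  have hd1 : d₁ ≤ d := le_trans (le_max_left _ _) (le_trans (le_max_left _ _) hd)
  have hd2 : d₂ ≤ d := le_trans (le_max_right _ _) (le_trans (le_max_left _ _) hd)
  have hd3 : d₃ ≤ d := le_trans (le_max_left _ _) (le_trans (le_max_right _ _) hd)
  have hd4 : 16 ≤ d := le_trans (le_max_right _ _) (le_trans (le_max_right _ _) hd)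
  have hsm := hS d hd3 M T ε hε hε1 L hL
  set ℓ := Real.log (1 / ε) with hℓ
  have hℓ0 : 0 < ℓ := Real.log_pos (by rw [lt_div_iff₀ hε]; linarith)
  have hdR : (16 : ℝ) ≤ d := by exact_mod_cast hd4
  have hdpos : (0 : ℝ) < d := by linarith
  by_cases hcase : ℓ ≤ 4 * (c₁ + c₂)
  · calc min (1 / (32 * (c₁ + c₂))) (1 / (64 * c₂)) * d * ℓ
        ≤ (1 / (32 * (c₁ + c₂))) * d * (4 * (c₁ + c₂)) := by
          gcongr
          exact min_le_left _ _
      _ = d / 8 := by field_simp; ring
      _ ≤ T := hsm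
  · rw [not_le] at hcase
    have hreal := success_real hC₁ hC₂ hd4 (fun x r hr => hC d hd1 x r hr)
      (fun J _ κ ν h1 h2 F hF x r hr => by
        have := hB d hd2 J κ ν h1 h2 F hF x r hr
        calc _ ≤ _ := this
          _ = _ := by ring) ε hε (by linarith) L hL
    set b := bl d with hb
    have hb0 : 0 < b := by rw [hb]; unfold bl; omega
    have hbR : (d : ℝ) / 16 ≤ b := by
      have h16 : d ≤ 16 * b := by rw [hb]; unfold bl; omega
      have : (d : ℝ) ≤ 16 * b := by exact_mod_cast h16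
      linarith
    have hbpos : (0 : ℝ) < b := by exact_mod_cast hb0
    set m := d - 1 - et d with hm
    have hmR : (d : ℝ) / 2 ≤ m := by
      have h2 : d ≤ 2 * m := by rw [hm]; unfold et; omega
      have : (d : ℝ) ≤ 2 * m := by exact_mod_cast h2
      linarith
    set K := T / b + 1 with hK
    set N : ℕ := 2 ^ M * (b + 1) with hN
    have hN0 : (0 : ℝ) < (N : ℝ) := by
      have : 0 < N := by rw [hN]; positivity
      exact_mod_cast this
    have hlogN : Real.log N ≤ M + b := by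
      rw [hN]
      push_cast
      rw [Real.log_mul (by positivity) (by positivity), Real.log_pow]
      have h1 : Real.log 2 ≤ 1 := by
        have := Real.log_two_lt_d9
        linarith
      have h2 : Real.log ((b : ℝ) + 1) ≤ b := by
        have := Real.log_le_sub_one_of_pos (show (0 : ℝ) < (b : ℝ) + 1 by positivity)
        linarith
      have h3 : (M : ℝ) * Real.log 2 ≤ M * 1 := by gcongr
      linarith
    have hlog : Real.log (2 / 3) ≤ Real.log (C₁ ^ d * ε ^ m *
      (C₂ ^ d * (N : ℝ) ^ ((1 : ℝ) / (b : ℝ))) ^ K) := Real.log_le_log (by norm_num) hreal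
    have hC₁p : 0 < C₁ := by linarith
    have hC₂p : 0 < C₂ := by linarith
    have hNp : 0 < (N : ℝ) ^ ((1 : ℝ) / (b : ℝ)) := Real.rpow_pos_of_pos hN0 _
    rw [Real.log_mul (by positivity) (by positivity), Real.log_mul (by positivity) (by positivity),
      Real.log_pow, Real.log_pow, Real.log_pow, Real.log_mul (by positivity) (by positivity),
      Real.log_pow, Real.log_rpow hN0] at hlog
    have hε_log : Real.log ε = -ℓ := by rw [hℓ, one_div, Real.log_inv]; ring
    rw [hε_log] at hlog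
    have h23 : -1 ≤ Real.log (2 / 3) := by
      have h := Real.one_sub_inv_le_log_of_pos (show (0 : ℝ) < 2 / 3 by norm_num)
      have : (1 : ℝ) - (2 / 3)⁻¹ = - (1 / 2) := by norm_num
      linarith
    have hterm : 1 / (b : ℝ) * Real.log N ≤ (16 * A + 1) * d := by
      have h1 : 1 / (b : ℝ) * Real.log N ≤ 1 / (b : ℝ) * (M + b) := by gcongr
      have h2 : 1 / (b : ℝ) * (M + b) = M / b + 1 := by field_simp
      have h3 : (M : ℝ) / b ≤ 16 * A * d := by
        rw [div_le_iff₀ hbpos]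
        calc (M : ℝ) ≤ A * d ^ 2 := hM
          _ = 16 * A * d * (d / 16) := by ring
          _ ≤ 16 * A * d * b := by gcongr
      nlinarith
    have hKR : (0 : ℝ) ≤ K := by positivity
    have hmain : (d : ℝ) / 2 * ℓ ≤ d * c₁ + K * (d * c₂) := by
      have h1 : (d : ℝ) / 2 * ℓ ≤ m * ℓ := by gcongr
      have h2 : (K : ℝ) * (d * Real.log C₂ + 1 / (b : ℝ) * Real.log N)
          ≤ K * (d * Real.log C₂ + (16 * A + 1) * d) := by gcongr
      have h3 : (K : ℝ) * (d * Real.log C₂ + (16 * A + 1) * d) = K * (d * c₂) := by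
        rw [hc₂]; ring
      have h4 : (m : ℝ) * ℓ ≤ 1 + d * Real.log C₁ + K * (d * c₂) := by nlinarith
      have h5 : (1 : ℝ) + d * Real.log C₁ ≤ d * c₁ := by rw [hc₁]; linarith
      linarith
    have hKbound : ℓ / 2 ≤ c₁ + K * c₂ := by
      have : (d : ℝ) * (ℓ / 2) ≤ d * (c₁ + K * c₂) := by linarith
      exact le_of_mul_le_mul_left this hdpos
    have hTb : ((K : ℝ) - 1) * b ≤ T := by
      have h1 : T / b * b ≤ T := Nat.div_mul_le_self T b
      have h2 : ((T / b : ℕ) : ℝ) * b ≤ T := by exact_mod_cast h1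
      have h3 : (K : ℝ) - 1 = ((T / b : ℕ) : ℝ) := by rw [hK]; push_cast; ring
      rw [h3]; exact h2
    have hK1 : ℓ / (4 * c₂) ≤ (K : ℝ) - 1 := by
      rw [div_le_iff₀ (by positivity)]
      nlinarith
    calc min (1 / (32 * (c₁ + c₂))) (1 / (64 * c₂)) * d * ℓ
        ≤ (1 / (64 * c₂)) * d * ℓ := by
          gcongr
          exact min_le_right _ _
      _ = ℓ / (4 * c₂) * (d / 16) := by field_simp; ring
      _ ≤ ((K : ℝ) - 1) * b := by
          have : 0 ≤ ℓ / (4 * c₂) := by positivity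
          have : (0 : ℝ) ≤ (K : ℝ) - 1 := by linarith
          gcongr
      _ ≤ T := hTb

end Crest.Agent.R322
end

-- ▼ part R322/SmallT
section

/-!
# CapBound and SmallT (row 322)
-/

set_option autoImplicit false
set_option linter.style.haveILetI false

open MeasureTheory Set Metric
open scoped Pointwise ENNReal

namespace Crest.Agent.R322

open Crest.StreamLearn

theorem capBound : CapBound := by
  refine ⟨2, by norm_num, 1, ?_⟩
  intro d hd x r hr
  haveI := sphereUniform_isProb hd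
  rw [sphE, Measure.map_apply measurable_subtype_coe measurableSet_closedBall]
  have h2 : ENNReal.ofReal (2 : ℝ) ^ d * ENNReal.ofReal r ^ (d - 1)
      = ENNReal.ofReal (2 ^ d * r ^ (d - 1)) := by
    rw [ENNReal.ofReal_mul (by positivity), ENNReal.ofReal_pow (by norm_num),
      ENNReal.ofReal_pow hr.le]
  rw [h2]
  by_cases h1 : r ≤ 1
  · rw [← ENNReal.ofReal_toReal (measure_ne_top (sphereUniform d) _)]
    exact ENNReal.ofReal_le_ofReal (sphereUniform_cap_le hd x hr h1)
  · push Not at h1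
    calc sphereUniform d _ ≤ 1 := prob_le_one
      _ = ENNReal.ofReal 1 := by simp
      _ ≤ _ := by
        apply ENNReal.ofReal_le_ofReal
        have : (1 : ℝ) ≤ 2 ^ d := one_le_pow₀ (by norm_num)
        have : (1 : ℝ) ≤ r ^ (d - 1) := one_le_pow₀ h1.le
        nlinarith

section Meas

variable {P S Y τ : Type*} [MeasurableSpace P] [MeasurableSpace Y] [Countable S]

lemma measurable_comp_countable {F : P → S → Y} {g : P → S} (hF : ∀ s, Measurable fun p => F p s)
    (hg : ∀ s, MeasurableSet {p | g p = s}) : Measurable fun p => F p (g p) := by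
  intro A hA
  have : (fun p => F p (g p)) ⁻¹' A = ⋃ s, ({p | g p = s} ∩ (fun p => F p s) ⁻¹' A) := by
    ext p
    simp
  rw [this]
  exact MeasurableSet.iUnion fun s => (hg s).inter (hF s hA)

lemma measurableSet_foldl {step : P → S → τ → S}
    (hstep : ∀ t s q, MeasurableSet {p | step p s t = q}) (l : List τ) :
    ∀ {g : P → S} (_ : ∀ q, MeasurableSet {p | g p = q}) (q : S),
      MeasurableSet {p | l.foldl (step p) (g p) = q} := by
  induction l with
  | nil => intro g hg q; simpa using hg q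
  | cons t l ih =>
    intro g hg q
    simp only [List.foldl_cons]
    refine ih (g := fun p => step p (g p) t) ?_ q
    intro q
    have : {p | step p (g p) t = q} = ⋃ s, ({p | g p = s} ∩ {p | step p s t = q}) := by
      ext p
      simp
    rw [this]
    exact MeasurableSet.iUnion fun s => (hg s).inter (hstep t s q)

end Meas

variable {d T M : ℕ}

lemma measurableSet_run (L : RLearner d T M) (q : L.St × Option ℕ) :
    letI : MeasurableSpace L.Ω := L.mΩ
    MeasurableSet {p : Sphere d × (L.Ω × (Fin T → E d)) | L.run p.2.1 (p.1 : E d) p.2.2 = q} := by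
  letI : MeasurableSpace L.Ω := L.mΩ
  letI : Fintype L.St := L.fin
  unfold RLearner.run
  refine measurableSet_foldl (P := Sphere d × (L.Ω × (Fin T → E d))) (S := L.St × Option ℕ)
    (τ := Fin T)
    (step := fun p st t => if st.2.isSome then st else
      if (L.trans t p.2.1 st.1 (p.2.2 t) (inner ℝ (p.2.2 t) (p.1 : E d))).2
      then ((L.trans t p.2.1 st.1 (p.2.2 t) (inner ℝ (p.2.2 t) (p.1 : E d))).1, some (t.val + 1))
      else ((L.trans t p.2.1 st.1 (p.2.2 t) (inner ℝ (p.2.2 t) (p.1 : E d))).1, none))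
    ?_ _ (g := fun p => (L.init p.2.1, if L.stopFirst p.2.1 then some 0 else none)) ?_ q
  · intro t st q
    by_cases hs : st.2.isSome
    · simp only [hs, if_true]
      exact MeasurableSet.const _
    · simp only [hs, Bool.false_eq_true, if_false]
      have hmeas : Measurable (fun p : Sphere d × (L.Ω × (Fin T → E d)) =>
          ((p.2.1, (p.2.2 t, inner ℝ (p.2.2 t) (p.1 : E d))) : L.Ω × (E d × ℝ))) := by
        refine Measurable.prodMk (measurable_fst.comp measurable_snd) (Measurable.prodMk ?_ ?_)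
        · exact (measurable_pi_apply t).comp (measurable_snd.comp measurable_snd)
        · exact Measurable.inner ((measurable_pi_apply t).comp (measurable_snd.comp measurable_snd))
            (measurable_subtype_coe.comp measurable_fst)
      have h1 : ∀ a : L.St, MeasurableSet {p : Sphere d × (L.Ω × (Fin T → E d)) |
          (L.trans t p.2.1 st.1 (p.2.2 t) (inner ℝ (p.2.2 t) (p.1 : E d))).1 = a} := by
        intro a
        exact hmeas ((L.trans_measurable t st.1).1 (t := {a}) trivial)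
      have h2 : MeasurableSet {p : Sphere d × (L.Ω × (Fin T → E d)) |
          (L.trans t p.2.1 st.1 (p.2.2 t) (inner ℝ (p.2.2 t) (p.1 : E d))).2 = true} :=
        hmeas ((L.trans_measurable t st.1).2 (t := {true}) trivial)
      obtain ⟨a, o⟩ := q
      have : {p : Sphere d × (L.Ω × (Fin T → E d)) |
        (if (L.trans t p.2.1 st.1 (p.2.2 t) (inner ℝ (p.2.2 t) (p.1 : E d))).2 = true
          then ((L.trans t p.2.1 st.1 (p.2.2 t) (inner ℝ (p.2.2 t) (p.1 : E d))).1,
            some (t.val + 1))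
          else ((L.trans t p.2.1 st.1 (p.2.2 t) (inner ℝ (p.2.2 t) (p.1 : E d))).1, none))
          = (a, o)} =
          {p | (L.trans t p.2.1 st.1 (p.2.2 t) (inner ℝ (p.2.2 t) (p.1 : E d))).1 = a} ∩
          (({p | (L.trans t p.2.1 st.1 (p.2.2 t) (inner ℝ (p.2.2 t) (p.1 : E d))).2 = true} ∩
              {_p | some (t.val + 1) = o}) ∪
            ({p | (L.trans t p.2.1 st.1 (p.2.2 t) (inner ℝ (p.2.2 t) (p.1 : E d))).2 = true}ᶜ ∩
              {_p | none = o})) := by
        ext p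
        by_cases h : (L.trans t p.2.1 st.1 (p.2.2 t) (inner ℝ (p.2.2 t) (p.1 : E d))).2 = true
        · simp [h]
        · simp [h]
      rw [this]
      exact (h1 a).inter ((h2.inter (MeasurableSet.const _)).union
        (h2.compl.inter (MeasurableSet.const _)))
  · intro q
    obtain ⟨a, o⟩ := q
    have hm : Measurable (fun p : Sphere d × (L.Ω × (Fin T → E d)) => p.2.1) :=
      measurable_fst.comp measurable_snd
    have h1 : MeasurableSet {p : Sphere d × (L.Ω × (Fin T → E d)) | L.init p.2.1 = a} :=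
      hm (L.init_measurable (t := {a}) trivial)
    have h2 : MeasurableSet {p : Sphere d × (L.Ω × (Fin T → E d)) | L.stopFirst p.2.1 = true} :=
      hm (L.stopFirst_measurable (t := {true}) trivial)
    have : {p : Sphere d × (L.Ω × (Fin T → E d)) |
        ((L.init p.2.1, if L.stopFirst p.2.1 = true then some 0 else none) : L.St × Option ℕ)
          = (a, o)} = {p | L.init p.2.1 = a} ∩
          (({p | L.stopFirst p.2.1 = true} ∩ {_p | some 0 = o}) ∪
            ({p | L.stopFirst p.2.1 = true}ᶜ ∩ {_p | none = o})) := by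
      ext p
      by_cases h : L.stopFirst p.2.1 = true
      · simp [h]
      · simp [h]
    rw [this]
    exact h1.inter ((h2.inter (MeasurableSet.const _)).union
        (h2.compl.inter (MeasurableSet.const _)))

lemma measurable_output (L : RLearner d T M) :
    letI : MeasurableSpace L.Ω := L.mΩ
    Measurable fun p : Sphere d × (L.Ω × (Fin T → E d)) => L.output p.2.1 (p.1 : E d) p.2.2 := by
  letI : MeasurableSpace L.Ω := L.mΩ
  letI : Fintype L.St := L.fin
  unfold RLearner.output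
  refine measurable_comp_countable (P := Sphere d × (L.Ω × (Fin T → E d)))
    (S := L.St × Option ℕ) (Y := E d)
    (F := fun p st => L.out (st.2.getD T) p.2.1 st.1)
    (g := fun p => L.run p.2.1 (p.1 : E d) p.2.2) ?_ ?_
  · intro st
    exact (L.out_measurable _ _).comp (measurable_fst.comp measurable_snd)
  · exact measurableSet_run L

lemma measurableSet_success (L : RLearner d T M) (ε : ℝ) :
    letI : MeasurableSpace L.Ω := L.mΩ
    MeasurableSet {p : Sphere d × (L.Ω × (Fin T → E d)) |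
      Real.arccos (inner ℝ (L.output p.2.1 p.1 p.2.2) (p.1 : E d)) ≤ ε} := by
  letI : MeasurableSpace L.Ω := L.mΩ
  refine measurableSet_le ?_ measurable_const
  exact Real.continuous_arccos.measurable.comp
    ((measurable_output L).inner (measurable_subtype_coe.comp measurable_fst))


section Second

lemma integrable_inner_sq (b : E d) :
    Integrable (fun s : Sphere d => (inner ℝ (s : E d) b) ^ 2) (sphereUniform d) := by
  refine Integrable.of_bound (C := ‖b‖ ^ 2) ?_ ?_
  · exact ((continuous_subtype_val.inner continuous_const).pow 2).aestronglyMeasurable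
  · filter_upwards with s
    rw [Real.norm_eq_abs, abs_of_nonneg (sq_nonneg _), ← sq_abs]
    have h := abs_real_inner_le_norm (s : E d) b
    have h1 : ‖(s : E d)‖ = 1 := by simp
    rw [h1, one_mul] at h
    exact pow_le_pow_left₀ (abs_nonneg _) h 2

lemma integral_inner_sq_map (R : E d ≃ₗᵢ[ℝ] E d) (b : E d) :
    ∫ s : Sphere d, (inner ℝ (s : E d) (R b)) ^ 2 ∂(sphereUniform d)
      = ∫ s : Sphere d, (inner ℝ (s : E d) b) ^ 2 ∂(sphereUniform d) := by
  have hmp := measurePreserving_sphMap R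
  conv_lhs => rw [← hmp.map_eq]
  rw [integral_map hmp.measurable.aemeasurable]
  · congr 1
    funext s
    rw [coe_sphMap, LinearIsometryEquiv.inner_map_map]
  · exact ((continuous_subtype_val.inner continuous_const).pow 2).aestronglyMeasurable

lemma integral_inner_sq (hd : 1 ≤ d) {b : E d} (hb : ‖b‖ = 1) :
    ∫ s : Sphere d, (inner ℝ (s : E d) b) ^ 2 ∂(sphereUniform d) = 1 / d := by
  have := sphereUniform_isProb hd
  have key : ∀ b' : E d, ‖b'‖ = 1 →
      ∫ s : Sphere d, (inner ℝ (s : E d) b') ^ 2 ∂(sphereUniform d)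
        = ∫ s : Sphere d, (inner ℝ (s : E d) b) ^ 2 ∂(sphereUniform d) := by
    intro b' hb'
    have h := Submodule.reflection_sub (F := E d) (v := b) (w := b') (by rw [hb, hb'])
    conv_lhs => rw [← h]
    exact integral_inner_sq_map _ _
  have hsum : ∑ i : Fin d, ∫ s : Sphere d,
      (inner ℝ (s : E d) (EuclideanSpace.basisFun (Fin d) ℝ i)) ^ 2 ∂(sphereUniform d) = 1 := by
    rw [← integral_finsetSum]
    · have : ∀ s : Sphere d, ∑ i : Fin d,
          (inner ℝ (s : E d) (EuclideanSpace.basisFun (Fin d) ℝ i)) ^ 2 = 1 := by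
        intro s
        have h := (EuclideanSpace.basisFun (Fin d) ℝ).sum_sq_norm_inner_left (s : E d)
        simp only [Real.norm_eq_abs, sq_abs] at h
        rw [h]
        simp
      rw [integral_congr_ae (Filter.Eventually.of_forall this)]
      simp
    · intro i _
      exact integrable_inner_sq _
  rw [Finset.sum_congr rfl (fun i _ => key _ (by simp))] at hsum
  simp only [Finset.sum_const, Finset.card_univ, Fintype.card_fin, nsmul_eq_mul] at hsum
  have hd' : (d : ℝ) ≠ 0 := by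
    have : (0 : ℝ) < d := by exact_mod_cast hd
    exact this.ne'
  field_simp
  linarith

lemma norm_proj_sq (V : Submodule ℝ (E d)) (s : E d) :
    ‖V.starProjection s‖ ^ 2
      = ∑ i, (inner ℝ s ((stdOrthonormalBasis ℝ V i : V) : E d)) ^ 2 := by
  have h := (stdOrthonormalBasis ℝ V).sum_sq_norm_inner_left (V.orthogonalProjectionOnto s)
  simp only [Real.norm_eq_abs, sq_abs] at h
  have h2 : ‖V.starProjection s‖ = ‖V.orthogonalProjectionOnto s‖ := by
    rw [Submodule.starProjection_apply]; rfl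
  rw [h2, ← h]
  refine Finset.sum_congr rfl fun i _ => ?_
  congr 1
  rw [Submodule.coe_inner]
  rw [← Submodule.starProjection_apply, Submodule.inner_starProjection_left_eq_right]
  rw [Submodule.starProjection_eq_self_iff.2 (Submodule.coe_mem _)]

lemma measureReal_proj_ge (hd : 1 ≤ d) (V : Submodule ℝ (E d)) {τ : ℝ} (hτ : 0 < τ) :
    (sphereUniform d).real {s : Sphere d | τ ≤ ‖V.starProjection (s : E d)‖ ^ 2}
      ≤ (Module.finrank ℝ V : ℝ) / d / τ := by
  have hint : Integrable (fun s : Sphere d => ‖V.starProjection (s : E d)‖ ^ 2)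
      (sphereUniform d) := by
    simp_rw [norm_proj_sq]
    exact integrable_finsetSum _ fun i _ => integrable_inner_sq _
  have h := mul_meas_ge_le_integral_of_nonneg (μ := sphereUniform d)
    (f := fun s : Sphere d => ‖V.starProjection (s : E d)‖ ^ 2)
    (Filter.Eventually.of_forall fun s => by positivity) hint τ
  have h2 : ∫ s : Sphere d, ‖V.starProjection (s : E d)‖ ^ 2 ∂(sphereUniform d)
      = (Module.finrank ℝ V : ℝ) / d := by
    simp_rw [norm_proj_sq]
    rw [integral_finsetSum _ fun i _ => integrable_inner_sq _]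
    rw [Finset.sum_congr rfl fun i _ => integral_inner_sq hd (b := ((stdOrthonormalBasis ℝ V i : V) : E d)) ?_]
    · simp; ring
    · exact (stdOrthonormalBasis ℝ V).norm_eq_one i
  rw [h2] at h
  rw [le_div_iff₀ hτ, mul_comm]
  exact h

end Second

section Reflect

lemma dist_le_of_arccos_le {o s : E d} (ho : ‖o‖ = 1) (hs : ‖s‖ = 1) {ε : ℝ} (hε0 : 0 < ε)
    (hε1 : ε ≤ 1) (h : Real.arccos (inner ℝ o s) ≤ ε) : ‖o - s‖ ≤ ε := by
  have h1 : |inner ℝ o s| ≤ 1 := by
    have := abs_real_inner_le_norm o s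
    rwa [ho, hs, one_mul] at this
  have h2 : Real.cos ε ≤ inner ℝ o s := by
    rw [← Real.cos_arccos (abs_le.1 h1).1 (abs_le.1 h1).2]
    apply Real.cos_le_cos_of_nonneg_of_le_pi (Real.arccos_nonneg _) _ h
    have := Real.pi_gt_three
    linarith
  have h3 := Real.one_sub_sq_div_two_le_cos (x := ε)
  have h4 : ‖o - s‖ ^ 2 ≤ ε ^ 2 := by
    rw [norm_sub_sq_real, ho, hs]
    nlinarith
  exact abs_le_of_sq_le_sq' h4 hε0.le |>.2

lemma run_reflect (L : RLearner d T M) (ω : L.Ω) (xs : Fin T → E d) (V : Submodule ℝ (E d))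
    (hV : ∀ t, xs t ∈ V) (s : E d) :
    L.run ω (V.reflection s) xs = L.run ω s xs := by
  have h : ∀ t, inner ℝ (xs t) (V.reflection s) = (inner ℝ (xs t) s : ℝ) := by
    intro t
    have h1 : V.reflection (xs t) = xs t := Submodule.reflection_mem_subspace_eq_self (hV t)
    conv_lhs => rw [← h1]
    rw [LinearIsometryEquiv.inner_map_map]
  unfold RLearner.run
  simp only [h]

lemma section_le (hd : 1 ≤ d) (L : RLearner d T M) {ε : ℝ} (hε0 : 0 < ε) (hε1 : ε ≤ 1 / 10)
    (ω : L.Ω) (xs : Fin T → E d)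
    (hmeas : MeasurableSet {s : Sphere d |
      Real.arccos (inner ℝ (L.output ω s xs) (s : E d)) ≤ ε}) :
    (sphereUniform d).real {s : Sphere d |
      Real.arccos (inner ℝ (L.output ω s xs) (s : E d)) ≤ ε} ≤ 1 / 2 + (T : ℝ) / d := by
  have hprob := sphereUniform_isProb hd
  set V : Submodule ℝ (E d) := Submodule.span ℝ (Set.range xs) with hVdef
  have hV : ∀ t, xs t ∈ V := fun t => Submodule.subset_span ⟨t, rfl⟩
  have hfin : Module.finrank ℝ V ≤ T := by
    have := finrank_range_le_card (R := ℝ) xs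
    simpa [Set.finrank, Fintype.card_fin] using this
  set S : Set (Sphere d) := {s : Sphere d |
      Real.arccos (inner ℝ (L.output ω s xs) (s : E d)) ≤ ε} with hS
  set R : E d ≃ₗᵢ[ℝ] E d := V.reflection with hR
  have hout : ∀ s : E d, ‖L.output ω s xs‖ = 1 := fun s => L.out_unit _ _ _
  have hSR : S ∩ sphMap R ⁻¹' S ⊆ {s : Sphere d | 9 / 10 ≤ ‖V.starProjection (s : E d)‖ ^ 2} := by
    rintro s ⟨h1, h2⟩
    simp only [hS, Set.mem_ofPred_eq, Set.mem_preimage, coe_sphMap] at h1 h2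
    have ho : L.output ω (R s) xs = L.output ω s xs := by
      unfold RLearner.output
      rw [hR, run_reflect L ω xs V hV s]
    rw [ho] at h2
    have h3 := dist_le_of_arccos_le (hout s) (by simp) hε0 (by linarith) h1
    have h4 := dist_le_of_arccos_le (hout s) (by simp) hε0 (by linarith) h2
    have h5 : ‖(s : E d) - R s‖ ≤ 2 * ε := by
      calc ‖(s : E d) - R s‖ = ‖(L.output ω s xs - R s) - (L.output ω s xs - s)‖ := by
            congr 1; abel
        _ ≤ ‖L.output ω s xs - R s‖ + ‖L.output ω s xs - s‖ := norm_sub_le _ _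
        _ ≤ 2 * ε := by linarith
    have h6 : (s : E d) - R s = (2 : ℝ) • ((s : E d) - V.starProjection (s : E d)) := by
      rw [hR, Submodule.reflection_apply, two_smul, two_smul]
      abel
    rw [h6, norm_smul, Real.norm_eq_abs, abs_of_pos (by norm_num : (0 : ℝ) < 2)] at h5
    have h7 : ‖(s : E d) - V.starProjection (s : E d)‖ ≤ ε := by linarith
    have h8 : ‖(s : E d)‖ ^ 2 = ‖V.starProjection (s : E d)‖ ^ 2
        + ‖(s : E d) - V.starProjection (s : E d)‖ ^ 2 := by
      have horth : inner ℝ (V.starProjection (s : E d)) ((s : E d) - V.starProjection (s : E d))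
          = 0 := by
        have := V.starProjection_inner_eq_zero (s : E d) (V.starProjection (s : E d)) (by
          exact V.starProjection_apply_mem _)
        rw [real_inner_comm]; exact this
      have := norm_add_sq_real (V.starProjection (s : E d)) ((s : E d) - V.starProjection (s : E d))
      rw [horth] at this
      simpa using this
    have h9 : ‖(s : E d)‖ = 1 := by simp
    rw [h9] at h8
    have h10 : ‖(s : E d) - V.starProjection (s : E d)‖ ^ 2 ≤ ε ^ 2 :=
      pow_le_pow_left₀ (norm_nonneg _) h7 2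
    simp only [Set.mem_ofPred_eq]
    nlinarith
  have hmp := measurePreserving_sphMap R
  have h1 : (sphereUniform d).real (sphMap R ⁻¹' S) = (sphereUniform d).real S := by
    rw [Measure.real, Measure.real, hmp.measure_preimage hmeas.nullMeasurableSet]
  have h2 := measureReal_union_add_inter (μ := sphereUniform d) (s := S) (t := sphMap R ⁻¹' S)
    (hmp.measurable hmeas)
  have h3 : (sphereUniform d).real (S ∪ sphMap R ⁻¹' S) ≤ 1 := measureReal_le_one
  have h4 : (sphereUniform d).real (S ∩ sphMap R ⁻¹' S) ≤ (T : ℝ) / d / (9 / 10) := by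
    calc (sphereUniform d).real (S ∩ sphMap R ⁻¹' S)
        ≤ (sphereUniform d).real {s : Sphere d | 9 / 10 ≤ ‖V.starProjection (s : E d)‖ ^ 2} :=
          measureReal_mono hSR
      _ ≤ (Module.finrank ℝ V : ℝ) / d / (9 / 10) := measureReal_proj_ge hd V (by norm_num)
      _ ≤ _ := by
        have : (Module.finrank ℝ V : ℝ) ≤ T := by exact_mod_cast hfin
        gcongr
  rw [h1] at h2
  have h5 : (0 : ℝ) ≤ (T : ℝ) / d := by positivity
  have h6 : (T : ℝ) / d / (9 / 10) ≤ 2 * ((T : ℝ) / d) := by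
    rw [div_le_iff₀ (by norm_num)]
    linarith
  linarith

theorem smallT' (hd : 1 ≤ d) (L : RLearner d T M) {ε : ℝ} (hε0 : 0 < ε) (hε1 : ε ≤ 1 / 10) :
    L.successProb ε ≤ 1 / 2 + (T : ℝ) / d := by
  have hprob := sphereUniform_isProb hd
  letI : MeasurableSpace L.Ω := L.mΩ
  have hρ : IsProbabilityMeasure L.ρ := L.prob
  have hm := measurableSet_success L ε
  unfold RLearner.successProb
  rw [Measure.real, Measure.prod_apply_symm hm]
  apply ENNReal.toReal_le_of_le_ofReal (by positivity)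
  calc ∫⁻ y : L.Ω × (Fin T → E d), (sphereUniform d) ((fun x => (x, y)) ⁻¹'
          {p : Sphere d × (L.Ω × (Fin T → E d)) |
            Real.arccos (inner ℝ (L.output p.2.1 p.1 p.2.2) (p.1 : E d)) ≤ ε})
        ∂(L.ρ.prod (Measure.pi fun _ : Fin T => ProbabilityTheory.stdGaussian (E d)))
      ≤ ∫⁻ y : L.Ω × (Fin T → E d), ENNReal.ofReal (1 / 2 + (T : ℝ) / d)
        ∂(L.ρ.prod (Measure.pi fun _ : Fin T => ProbabilityTheory.stdGaussian (E d))) := by
        apply lintegral_mono
        intro y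
        have hsec : MeasurableSet {s : Sphere d |
            Real.arccos (inner ℝ (L.output y.1 s y.2) (s : E d)) ≤ ε} :=
          measurable_prodMk_right hm
        have := section_le hd L hε0 hε1 y.1 y.2 hsec
        change sphereUniform d {s : Sphere d |
            Real.arccos (inner ℝ (L.output y.1 s y.2) (s : E d)) ≤ ε} ≤ _
        rw [← ENNReal.ofReal_toReal (measure_ne_top (sphereUniform d) _)]
        exact ENNReal.ofReal_le_ofReal this
    _ = ENNReal.ofReal (1 / 2 + (T : ℝ) / d) := by simp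

theorem smallT : SmallT := by
  refine ⟨1, ?_⟩
  intro d hd M T ε hε0 hε1 L h
  have h1 := smallT' hd L hε0 hε1
  have hd' : (0 : ℝ) < d := by exact_mod_cast hd
  have h2 : (1 : ℝ) / 6 ≤ (T : ℝ) / d := by linarith
  rw [le_div_iff₀ hd'] at h2
  linarith

end Reflect

end Crest.Agent.R322
end

-- ▼ part R322/Fr/Tube
section

set_option autoImplicit false
open MeasureTheory Metric Set
open scoped ENNReal NNReal

namespace Crest.Agent.R322.Fr

open Crest.StreamLearn

variable {d : ℕ}

theorem infDist_eq_norm_sub (V : Submodule ℝ (E d)) (s : E d) :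
    ‖s - ((V.orthogonalProjectionOnto s : V) : E d)‖ = infDist s (V : Set (E d)) := by
  have h := Submodule.starProjection_minimal (U := V) s
  rw [infDist_eq_iInf]
  rw [Submodule.starProjection_apply] at h
  rw [h]
  rfl

/-- Measure of the `r`-tube around a linear subspace inside a ball. -/
theorem tube {ν : Measure (E d)} [SFinite ν] {κ : ℝ≥0∞} {η : ℕ}
    (hν : Frost η κ ν) (V : Submodule ℝ (E d))
    (x₀ : E d) {ρ r : ℝ} (hρ : 0 < ρ) (hr : 0 < r) :
    ν (closedBall x₀ ρ ∩ {s | infDist s (V : Set (E d)) ≤ r}) ≤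
      κ * ENNReal.ofReal ((2 * r) ^ η * ((ρ + 2 * r) / r) ^ (Module.finrank ℝ V)) := by
  set m := Module.finrank ℝ V with hm
  set N : Set (E d) :=
    closedBall x₀ ρ ∩ {s | infDist s (V : Set (E d)) ≤ r} with hN
  have hNm : MeasurableSet N := by
    apply MeasurableSet.inter isClosed_closedBall.measurableSet
    exact (isClosed_le (continuous_infDist_pt _) continuous_const).measurableSet
  let P : E d → V := fun s => V.orthogonalProjectionOnto s
  have hdist : ∀ s, ‖s - (P s : E d)‖ = infDist s (V : Set (E d)) :=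
    fun s => infDist_eq_norm_sub V s
  set c : ℝ≥0∞ := volume (ball (0 : V) 1) with hc
  have hc0 : c ≠ 0 := (measure_ball_pos volume _ one_pos).ne'
  have hct : c ≠ ⊤ := measure_ball_lt_top.ne
  have hball : ∀ (x : V) (R : ℝ), 0 ≤ R → volume (closedBall x R) = ENNReal.ofReal (R ^ m) * c := by
    intro x R hR
    exact Measure.addHaar_closedBall volume x hR
  -- the set of pairs
  let S : Set (E d × V) := {q | q.1 ∈ N ∧ ‖q.1 - (q.2 : E d)‖ ≤ 2 * r}
  have hS : MeasurableSet S := by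
    apply MeasurableSet.inter (hNm.preimage measurable_fst)
    have : Continuous fun q : E d × V => ‖q.1 - (q.2 : E d)‖ := by
      fun_prop
    exact (isClosed_le this continuous_const).measurableSet
  have h1 : (ENNReal.ofReal (r ^ m) * c) * ν N ≤ (ν.prod volume) S := by
    rw [Measure.prod_apply hS]
    calc (ENNReal.ofReal (r ^ m) * c) * ν N = ∫⁻ s in N, (ENNReal.ofReal (r ^ m) * c) ∂ν := by
          rw [setLIntegral_const]
      _ ≤ ∫⁻ s in N, volume (Prod.mk s ⁻¹' S) ∂ν := by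
          apply setLIntegral_mono' hNm
          intro s hs
          rw [← hball (P s) r hr.le]
          apply measure_mono
          intro v hv
          refine ⟨hs, ?_⟩
          have h2 : ‖s - (P s : E d)‖ ≤ r := by rw [hdist]; exact hs.2
          have h3 : ‖(P s : E d) - v‖ ≤ r := by
            have := mem_closedBall.1 hv
            rw [dist_comm, dist_eq_norm] at this
            simpa using this
          calc ‖s - (v : E d)‖ = ‖(s - P s) + ((P s : E d) - v)‖ := by
                congr 1; abel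
            _ ≤ r + r := (norm_add_le _ _).trans (add_le_add h2 h3)
            _ = 2 * r := by ring
      _ ≤ ∫⁻ s, volume (Prod.mk s ⁻¹' S) ∂ν := setLIntegral_le_lintegral _ _
  have h2 : (ν.prod volume) S ≤ (κ * ENNReal.ofReal ((2 * r) ^ η)) * (ENNReal.ofReal ((ρ + 2 * r) ^ m) * c) := by
    rw [Measure.prod_apply_symm hS]
    calc ∫⁻ v, ν ((fun x => (x, v)) ⁻¹' S) ∂volume
        ≤ ∫⁻ v, (closedBall (P x₀) (ρ + 2 * r)).indicator (fun _ => κ * ENNReal.ofReal ((2 * r) ^ η)) v ∂volume := by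
          apply lintegral_mono
          intro v
          by_cases hv : v ∈ closedBall (P x₀) (ρ + 2 * r)
          · rw [indicator_of_mem hv]
            refine (measure_mono ?_).trans ((hν (v : E d) (2 * r) (by positivity)).trans_eq ?_)
            · intro s hs
              rw [mem_closedBall, dist_eq_norm]
              exact hs.2
            · rw [ENNReal.ofReal_pow (by positivity)]
          · rw [indicator_of_notMem hv]
            simp only [nonpos_iff_eq_zero]
            convert measure_empty (μ := ν)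
            rw [eq_empty_iff_forall_notMem]
            intro s hs
            apply hv
            rw [mem_closedBall, dist_eq_norm]
            have h4 : ‖(v : E d) - x₀‖ ≤ ρ + 2 * r := by
              have h5 : ‖s - x₀‖ ≤ ρ := by simpa [dist_eq_norm] using hs.1.1
              have h6 : ‖s - (v : E d)‖ ≤ 2 * r := hs.2
              calc ‖(v : E d) - x₀‖ = ‖(s - x₀) - (s - v)‖ := by congr 1; abel
                _ ≤ ρ + 2 * r := (norm_sub_le _ _).trans (add_le_add h5 h6)
            have h7 : v - P x₀ = V.orthogonalProjectionOnto ((v : E d) - x₀) := by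
              rw [map_sub]
              congr 1
              simp
            rw [h7]
            exact (Submodule.norm_orthogonalProjectionOnto_apply_le V _).trans h4
      _ = (κ * ENNReal.ofReal ((2 * r) ^ η)) * (ENNReal.ofReal ((ρ + 2 * r) ^ m) * c) := by
          rw [lintegral_indicator isClosed_closedBall.measurableSet, setLIntegral_const, hball _ _ (by positivity)]
  have h3 := h1.trans h2
  have hrm : ENNReal.ofReal (r ^ m) ≠ 0 := by simp; positivity
  have hrt : ENNReal.ofReal (r ^ m) ≠ ⊤ := ENNReal.ofReal_ne_top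
  have h4 : (ENNReal.ofReal (r ^ m) * c) * (κ * ENNReal.ofReal ((2 * r) ^ η * ((ρ + 2 * r) / r) ^ m)) =
      (κ * ENNReal.ofReal ((2 * r) ^ η)) * (ENNReal.ofReal ((ρ + 2 * r) ^ m) * c) := by
    have h5 : ENNReal.ofReal (r ^ m) * ENNReal.ofReal ((2 * r) ^ η * ((ρ + 2 * r) / r) ^ m) =
        ENNReal.ofReal ((2 * r) ^ η) * ENNReal.ofReal ((ρ + 2 * r) ^ m) := by
      rw [← ENNReal.ofReal_mul (by positivity), ← ENNReal.ofReal_mul (by positivity)]
      congr 1
      rw [div_pow]
      field_simp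
    calc _ = κ * c * (ENNReal.ofReal (r ^ m) * ENNReal.ofReal ((2 * r) ^ η * ((ρ + 2 * r) / r) ^ m)) := by ring
      _ = _ := by rw [h5]; ring
  rw [← h4] at h3
  exact (ENNReal.mul_le_mul_iff_right (mul_ne_zero hrm hc0) (ENNReal.mul_ne_top hrt hct)).1 h3

end Crest.Agent.R322.Fr
end

-- ▼ part R322/Fr/Energy
section

set_option autoImplicit false
open MeasureTheory Metric Set
open scoped ENNReal NNReal

namespace Crest.Agent.R322.Fr

open Crest.StreamLearn

variable {d : ℕ}

theorem real_term_bound {ρ : ℝ} (hρ : 0 < ρ) {η b m k : ℕ} (h : m + b + 1 ≤ η) :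
    (2 ^ (k + 1) / ρ) ^ b * ((2 * (ρ / 2 ^ k)) ^ η * ((ρ + 2 * (ρ / 2 ^ k)) / (ρ / 2 ^ k)) ^ m) ≤
      ρ ^ (η - b) * (2 ^ (b + η) * 3 ^ m) * (1 / 2) ^ k := by
  obtain ⟨j, rfl⟩ : ∃ j, η = m + b + 1 + j := Nat.exists_eq_add_of_le h
  have ha : (1 : ℝ) ≤ 2 ^ k := one_le_pow₀ (by norm_num)
  have hapos : (0 : ℝ) < 2 ^ k := by positivity
  have h1 : (ρ + 2 * (ρ / 2 ^ k)) / (ρ / 2 ^ k) = 2 ^ k + 2 := by
    field_simp
  have h2 : (2 : ℝ) ^ k + 2 ≤ 3 * 2 ^ k := by linarith
  rw [h1]
  have h3 : m + b + 1 + j - b = m + 1 + j := by omega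
  rw [h3]
  have h4 : ((2 : ℝ) ^ k + 2) ^ m ≤ (3 * 2 ^ k) ^ m := pow_le_pow_left₀ (by positivity) h2 _
  calc (2 ^ (k + 1) / ρ) ^ b * ((2 * (ρ / 2 ^ k)) ^ (m + b + 1 + j) * (2 ^ k + 2) ^ m)
      ≤ (2 ^ (k + 1) / ρ) ^ b * ((2 * (ρ / 2 ^ k)) ^ (m + b + 1 + j) * (3 * 2 ^ k) ^ m) := by
        gcongr
    _ = ρ ^ (m + 1 + j) * (2 ^ (b + (m + b + 1 + j)) * 3 ^ m) * ((1 / 2 ^ k) * (1 / 2 ^ k) ^ j) := by
        have e1 : (2 : ℝ) ^ (k + 1) / ρ = 2 * 2 ^ k / ρ := by ring
        rw [e1]
        generalize (2 : ℝ) ^ k = a at *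
        rw [one_div_pow, div_pow, mul_pow, mul_pow, div_pow, mul_pow]
        have hap : a ^ j ≠ 0 := by positivity
        have hane : a ≠ 0 := hapos.ne'
        have hpne : ρ ≠ 0 := hρ.ne'
        field_simp
        ring
    _ ≤ ρ ^ (m + 1 + j) * (2 ^ (b + (m + b + 1 + j)) * 3 ^ m) * (1 / 2) ^ k := by
        have e2 : ((1 : ℝ) / 2 ^ k) ^ j ≤ 1 := pow_le_one₀ (by positivity) (by
          rw [div_le_one hapos]; exact ha)
        have e3 : ((1 : ℝ) / 2) ^ k = 1 / 2 ^ k := by rw [div_pow, one_pow]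
        rw [e3]
        gcongr
        calc (1 : ℝ) / 2 ^ k * (1 / 2 ^ k) ^ j ≤ 1 / 2 ^ k * 1 := by gcongr
          _ = 1 / 2 ^ k := by ring

/-- Pointwise dyadic bound for `u⁻¹ ^ b`. -/
theorem inv_pow_le_dyadic {ρ : ℝ} (hρ : 0 < ρ) (b : ℕ) {u : ℝ} (hu : 0 ≤ u) :
    ((ENNReal.ofReal u)⁻¹) ^ b ≤ ((ENNReal.ofReal ρ)⁻¹) ^ b +
      ∑' k : ℕ, (if u ≤ ρ / 2 ^ k then ((ENNReal.ofReal (ρ / 2 ^ (k + 1)))⁻¹) ^ b else 0) := by
  rcases le_or_gt ρ u with h | h
  · refine le_trans ?_ le_self_add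
    gcongr
  rcases eq_or_lt_of_le hu with h0 | h0
  · subst h0
    rcases Nat.eq_zero_or_pos b with hb | hb
    · subst hb; simp
    · have : ∑' k : ℕ, (if (0 : ℝ) ≤ ρ / 2 ^ k then ((ENNReal.ofReal (ρ / 2 ^ (k + 1)))⁻¹) ^ b else 0) = ⊤ := by
        rw [eq_top_iff]
        have hc : ((ENNReal.ofReal ρ)⁻¹) ^ b ≠ 0 := by
          apply pow_ne_zero
          simp
        rw [← ENNReal.tsum_const_eq_top_of_ne_zero (α := ℕ) hc]
        apply ENNReal.tsum_le_tsum
        intro k
        rw [if_pos (by positivity)]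
        gcongr
        apply div_le_self hρ.le
        exact one_le_pow₀ (by norm_num)
      rw [this]
      simp
  · obtain ⟨k, hk1, hk2⟩ := exists_nat_pow_near_of_lt_one (x := u / ρ) (y := (1 / 2 : ℝ)) (by positivity)
      (by rw [div_le_one hρ]; exact h.le) (by norm_num) (by norm_num)
    have h1 : ρ / 2 ^ (k + 1) < u := by
      rw [lt_div_iff₀ hρ] at hk1
      calc ρ / 2 ^ (k + 1) = (1 / 2) ^ (k + 1) * ρ := by rw [div_pow, one_pow]; ring
        _ < u := hk1
    have h2 : u ≤ ρ / 2 ^ k := by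
      rw [div_le_iff₀ hρ] at hk2
      calc u ≤ (1 / 2) ^ k * ρ := hk2
        _ = ρ / 2 ^ k := by rw [div_pow, one_pow]; ring
    refine le_trans ?_ le_add_self
    refine le_trans ?_ (ENNReal.le_tsum k)
    rw [if_pos h2]
    gcongr

/-- Energy bound for Frostman measures. -/
theorem energy {ν : Measure (E d)} [SFinite ν] {κ : ℝ≥0∞} {η b : ℕ}
    (hν : Frost η κ ν) (V : Submodule ℝ (E d)) (hm : Module.finrank ℝ V + b + 1 ≤ η)
    (x₀ : E d) {ρ : ℝ} (hρ : 0 < ρ) :
    ∫⁻ s in closedBall x₀ ρ, ((ENNReal.ofReal (infDist s (V : Set (E d))))⁻¹) ^ b ∂ν ≤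
      κ * ENNReal.ofReal (ρ ^ (η - b) * (2 ^ (b + η + 2) * 3 ^ (Module.finrank ℝ V))) := by
  set m := Module.finrank ℝ V with hmdef
  have hmeas : ∀ r : ℝ, MeasurableSet {s : E d | infDist s (V : Set (E d)) ≤ r} := fun r =>
    (isClosed_le (continuous_infDist_pt _) continuous_const).measurableSet
  have hBm : MeasurableSet (closedBall x₀ ρ) := isClosed_closedBall.measurableSet
  calc ∫⁻ s in closedBall x₀ ρ, ((ENNReal.ofReal (infDist s (V : Set (E d))))⁻¹) ^ b ∂ν
      ≤ ∫⁻ s in closedBall x₀ ρ, (((ENNReal.ofReal ρ)⁻¹) ^ b +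
          ∑' k : ℕ, ({s : E d | infDist s (V : Set (E d)) ≤ ρ / 2 ^ k}).indicator
            (fun _ => ((ENNReal.ofReal (ρ / 2 ^ (k + 1)))⁻¹) ^ b) s) ∂ν := by
        apply lintegral_mono
        intro s
        refine (inv_pow_le_dyadic hρ b (infDist_nonneg (x := s) (s := (V : Set (E d))))).trans_eq ?_
        congr 1
    _ = ((ENNReal.ofReal ρ)⁻¹) ^ b * ν (closedBall x₀ ρ) +
          ∑' k : ℕ, ((ENNReal.ofReal (ρ / 2 ^ (k + 1)))⁻¹) ^ b *
            ν (closedBall x₀ ρ ∩ {s : E d | infDist s (V : Set (E d)) ≤ ρ / 2 ^ k}) := by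
        rw [lintegral_add_left measurable_const, setLIntegral_const, lintegral_tsum]
        · congr 1
          apply tsum_congr
          intro k
          rw [lintegral_indicator_const (hmeas _), Measure.restrict_apply (hmeas _), inter_comm]
        · intro k
          exact (measurable_const.indicator (hmeas _)).aemeasurable
    _ ≤ κ * ENNReal.ofReal (ρ ^ (η - b)) +
          ∑' k : ℕ, κ * ENNReal.ofReal (ρ ^ (η - b) * (2 ^ (b + η) * 3 ^ m) * (1 / 2) ^ k) := by
        apply add_le_add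
        · calc ((ENNReal.ofReal ρ)⁻¹) ^ b * ν (closedBall x₀ ρ)
              ≤ ((ENNReal.ofReal ρ)⁻¹) ^ b * (κ * ENNReal.ofReal ρ ^ η) := by gcongr; exact hν _ _ hρ
            _ = κ * ENNReal.ofReal (ρ ^ (η - b)) := by
                have : η = b + (η - b) := by omega
                conv_lhs => rw [this, pow_add]
                rw [ENNReal.ofReal_pow hρ.le]
                have h1 : ((ENNReal.ofReal ρ)⁻¹) ^ b * (ENNReal.ofReal ρ) ^ b = 1 := by
                  rw [← mul_pow, ENNReal.inv_mul_cancel (by simpa using hρ) ENNReal.ofReal_ne_top, one_pow]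
                calc _ = κ * (((ENNReal.ofReal ρ)⁻¹) ^ b * (ENNReal.ofReal ρ) ^ b) * ENNReal.ofReal ρ ^ (η - b) := by ring
                  _ = _ := by rw [h1, mul_one]
        · apply ENNReal.tsum_le_tsum
          intro k
          calc ((ENNReal.ofReal (ρ / 2 ^ (k + 1)))⁻¹) ^ b *
              ν (closedBall x₀ ρ ∩ {s : E d | infDist s (V : Set (E d)) ≤ ρ / 2 ^ k})
              ≤ ENNReal.ofReal ((2 ^ (k + 1) / ρ) ^ b) * (κ * ENNReal.ofReal ((2 * (ρ / 2 ^ k)) ^ η *
                  ((ρ + 2 * (ρ / 2 ^ k)) / (ρ / 2 ^ k)) ^ m)) := by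
                gcongr
                · rw [← ENNReal.ofReal_inv_of_pos (by positivity), ← ENNReal.ofReal_pow (by positivity), inv_div]
                · exact tube hν V x₀ hρ (by positivity)
            _ = κ * ENNReal.ofReal ((2 ^ (k + 1) / ρ) ^ b * ((2 * (ρ / 2 ^ k)) ^ η *
                  ((ρ + 2 * (ρ / 2 ^ k)) / (ρ / 2 ^ k)) ^ m)) := by
                rw [ENNReal.ofReal_mul (p := (2 ^ (k + 1) / ρ) ^ b) (by positivity)]
                ring
            _ ≤ _ := mul_le_mul' le_rfl (ENNReal.ofReal_le_ofReal (real_term_bound hρ hm))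
    _ ≤ κ * ENNReal.ofReal (ρ ^ (η - b) * (2 ^ (b + η + 2) * 3 ^ m)) := by
        rw [ENNReal.tsum_mul_left, ← mul_add]
        gcongr
        have h2 : ∑' k : ℕ, ENNReal.ofReal (ρ ^ (η - b) * (2 ^ (b + η) * 3 ^ m) * (1 / 2) ^ k) =
            ENNReal.ofReal (ρ ^ (η - b) * (2 ^ (b + η) * 3 ^ m) * 2) := by
          rw [← ENNReal.ofReal_tsum_of_nonneg]
          · rw [tsum_mul_left, tsum_geometric_two]
          · intro k; positivity
          · exact (summable_geometric_two).mul_left _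
        rw [h2, ← ENNReal.ofReal_add (by positivity) (by positivity)]
        apply ENNReal.ofReal_le_ofReal
        have h3 : (1 : ℝ) ≤ 2 ^ (b + η) * 3 ^ m := one_le_mul_of_one_le_of_one_le
          (one_le_pow₀ (by norm_num)) (one_le_pow₀ (by norm_num))
        have h4 : (0 : ℝ) ≤ ρ ^ (η - b) := by positivity
        have h5 : ρ ^ (η - b) * (2 ^ (b + η + 2) * 3 ^ m) = ρ ^ (η - b) * (2 ^ (b + η) * 3 ^ m) * 4 := by ring
        rw [h5]
        have h6 : ρ ^ (η - b) * 1 ≤ ρ ^ (η - b) * (2 ^ (b + η) * 3 ^ m) := by gcongr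
        nlinarith

end Crest.Agent.R322.Fr
end

-- ▼ part R322/Fr/Assemble
section

set_option autoImplicit false
open MeasureTheory Metric Set
open scoped ENNReal NNReal

namespace Crest.Agent.R322.Fr

open Crest.StreamLearn

/-- the region statement -/
def RegionStmt : Prop :=
  ∃ C : ℝ, 1 ≤ C ∧ ∃ d₁ : ℕ, ∀ d ≥ d₁, ∀ (x : E d) (r : ℝ), 0 < r →
    ∃ R : Set ((Fin (bl d) → E d) × (Fin (bl d) → ℝ)), MeasurableSet R ∧
      (∀ (X : Fin (bl d) → E d) (s : E d), s ∈ closedBall x r →
        (X, fun i => inner ℝ (X i) s) ∈ R) ∧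
      ((gam d (bl d)).prod volume) R ≤ ENNReal.ofReal C ^ d * ENNReal.ofReal r ^ (bl d)

/-- the core statement (`k` rows, moment order `p`) -/
def CoreStmt : Prop :=
  ∀ (d k : ℕ), 1 ≤ k → ∀ (J : Type) [Fintype J] (μ : J → Measure (E d)),
    (∀ j, IsFiniteMeasure (μ j)) → ∀ (D m t : ℝ≥0∞), t ≠ 0 → t ≠ ⊤ →
    (∀ j, ∀ V : Submodule ℝ (E d), Module.finrank ℝ V < k →
      ∫⁻ s, ((ENNReal.ofReal (infDist s (V : Set (E d))))⁻¹) ^ k ∂(μ j) ≤ D) →
    (∀ j, μ j univ ≤ m) →
    ∀ (F : (Fin k → E d) → (Fin k → ℝ) → J),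
      (∀ j, MeasurableSet {p : (Fin k → E d) × (Fin k → ℝ) | F p.1 p.2 = j}) →
    ∀ R : Set ((Fin k → E d) × (Fin k → ℝ)), MeasurableSet R →
      ∑ j, ∫⁻ X, μ j {s | F X (fun i => inner ℝ (X i) s) = j ∧
          (X, fun i => inner ℝ (X i) s) ∈ R} ∂(gam d k) ≤
        t * ((gam d k).prod volume) R + (t⁻¹) ^ (k - 1) * (Fintype.card J : ℝ≥0∞) *
          D ^ (k - 1) * m

theorem assemble_aux {d b : ℕ} (hb1 : 1 ≤ b) (hbd : b ≤ d) {C : ℝ} (hC1 : 1 ≤ C)
    (hC : CoreStmt) (J : Type) [Fintype J] (κ : ℝ≥0∞) (ν : J → Measure (E d))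
    (hfin : ∀ j, IsFiniteMeasure (ν j)) (hfrost : ∀ j, Frost (2 * b) κ (ν j))
    (F : (Fin b → E d) → (Fin b → ℝ) → J)
    (hF : ∀ j, MeasurableSet {p : (Fin b → E d) × (Fin b → ℝ) | F p.1 p.2 = j})
    (x : E d) (r : ℝ) (hr : 0 < r)
    (hreg : ∃ R : Set ((Fin b → E d) × (Fin b → ℝ)), MeasurableSet R ∧
      (∀ (X : Fin b → E d) (s : E d), s ∈ closedBall x r →
        (X, fun i => inner ℝ (X i) s) ∈ R) ∧
      ((gam d b).prod volume) R ≤ ENNReal.ofReal C ^ d * ENNReal.ofReal r ^ b) :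
    ∑ j, ∫⁻ X, ν j {s | s ∈ closedBall x r ∧
            F X (fun i => inner ℝ (X i) s) = j} ∂(gam d b)
          ≤ κ * ENNReal.ofReal (2 ^ 20 * C) ^ d * (Fintype.card J : ℝ≥0∞) ^ ((1 : ℝ) / (b : ℝ))
              * ENNReal.ofReal r ^ (2 * b) := by
  have hrpos : ENNReal.ofReal r ≠ 0 := by simpa using hr
  have hrtop : ENNReal.ofReal r ≠ ⊤ := ENNReal.ofReal_ne_top
  rcases isEmpty_or_nonempty J with hJ | hJ
  · simp
  have hN1 : (1 : ℝ≥0∞) ≤ (Fintype.card J : ℝ≥0∞) := by
    exact_mod_cast Fintype.card_pos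
  have hNtop : (Fintype.card J : ℝ≥0∞) ≠ ⊤ := ENNReal.natCast_ne_top _
  set N : ℝ≥0∞ := (Fintype.card J : ℝ≥0∞) with hN
  set q : ℝ≥0∞ := N ^ ((1 : ℝ) / (b : ℝ)) with hq
  have hq0 : q ≠ 0 := by
    rw [hq]
    simp only [ne_eq, ENNReal.rpow_eq_zero_iff, not_or, not_and]
    constructor
    · intro h; rw [h] at hN1; simp at hN1
    · intro h; exact absurd h hNtop
  have hqtop : q ≠ ⊤ := ENNReal.rpow_ne_top_of_nonneg (by positivity) hNtop
  have hqb : q ^ b = N := by
    rw [hq, ← ENNReal.rpow_natCast, ← ENNReal.rpow_mul]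
    have : (1 : ℝ) / (b : ℝ) * (b : ℝ) = 1 := by
      have : (b : ℝ) ≠ 0 := by positivity
      field_simp
    rw [this, ENNReal.rpow_one]
  rcases eq_or_ne κ ⊤ with hκ | hκ
  · -- trivial
    have : κ * ENNReal.ofReal (2 ^ 20 * C) ^ d * q * ENNReal.ofReal r ^ ((2 * b)) = ⊤ := by
      rw [hκ]
      rw [ENNReal.top_mul, ENNReal.top_mul hq0, ENNReal.top_mul (pow_ne_zero _ hrpos)]
      apply pow_ne_zero
      simp only [ne_eq, ENNReal.ofReal_eq_zero, not_le]
      positivity
    rw [this]; exact le_top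
  rcases eq_or_ne κ 0 with hκ0 | hκ0
  · have h0 : ∀ j, ν j (closedBall x r) = 0 := by
      intro j
      have := hfrost j x r hr
      rw [hκ0, zero_mul] at this
      exact le_antisymm this zero_le
    have : ∑ j, ∫⁻ X, ν j {s | s ∈ closedBall x r ∧
            F X (fun i => inner ℝ (X i) s) = j} ∂(gam d b) = 0 := by
      apply Finset.sum_eq_zero
      intro j _
      rw [lintegral_eq_zero_of_ae_eq_zero]
      apply Filter.Eventually.of_forall
      intro X
      exact measure_mono_null (fun s hs => hs.1) (h0 j)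
    rw [this]; exact zero_le
  -- main case
  obtain ⟨R, hRm, hRmem, hRvol⟩ := hreg
  have hBm : MeasurableSet (closedBall x r) := isClosed_closedBall.measurableSet
  set μ : J → Measure (E d) := fun j => (ν j).restrict (closedBall x r) with hμ
  set A : ℝ≥0∞ := ENNReal.ofReal (2 ^ (3 * b + 2) * 3 ^ b) with hA
  set D : ℝ≥0∞ := κ * ENNReal.ofReal r ^ b * A with hD
  set t : ℝ≥0∞ := q * D with ht
  have hA0 : A ≠ 0 := by
    simp only [hA, ne_eq, ENNReal.ofReal_eq_zero, not_le]; positivity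
  have hAtop : A ≠ ⊤ := ENNReal.ofReal_ne_top
  have hD0 : D ≠ 0 := mul_ne_zero (mul_ne_zero hκ0 (pow_ne_zero _ hrpos)) hA0
  have hDtop : D ≠ ⊤ := ENNReal.mul_ne_top (ENNReal.mul_ne_top hκ (ENNReal.pow_ne_top hrtop)) hAtop
  have ht0 : t ≠ 0 := mul_ne_zero hq0 hD0
  have httop : t ≠ ⊤ := ENNReal.mul_ne_top hqtop hDtop
  have hDhyp : ∀ j, ∀ V : Submodule ℝ (E d), Module.finrank ℝ V < b →
      ∫⁻ s, ((ENNReal.ofReal (infDist s (V : Set (E d))))⁻¹) ^ b ∂(μ j) ≤ D := by
    intro j V hV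
    have := hfin j
    refine (energy (hfrost j) V (b := b) (by omega) x hr).trans ?_
    rw [hD, mul_assoc]
    gcongr κ * ?_
    rw [hA, ← ENNReal.ofReal_pow hr.le, ← ENNReal.ofReal_mul (by positivity)]
    apply ENNReal.ofReal_le_ofReal
    have e1 : 2 * b - b = b := by omega
    have e2 : b + 2 * b + 2 = 3 * b + 2 := by ring
    rw [e1, e2]
    gcongr
    · norm_num
  have hm : ∀ j, μ j univ ≤ κ * ENNReal.ofReal r ^ ((2 * b)) := by
    intro j
    rw [hμ]; simp only [Measure.restrict_apply_univ]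
    exact hfrost j x r hr
  have hfin' : ∀ j, IsFiniteMeasure (μ j) := fun j => by
    have := hfin j
    rw [hμ]; infer_instance
  have hcore := hC d b hb1 J μ hfin' D (κ * ENNReal.ofReal r ^ ((2 * b))) t ht0 httop hDhyp hm F hF R hRm
  have hobs : ∀ X : Fin b → E d, Measurable fun s : E d => (fun i => inner ℝ (X i) s : Fin b → ℝ) := by
    intro X
    fun_prop
  have hlhs : ∑ j, ∫⁻ X, ν j {s | s ∈ closedBall x r ∧
            F X (fun i => inner ℝ (X i) s) = j} ∂(gam d b) ≤
      ∑ j, ∫⁻ X, μ j {s | F X (fun i => inner ℝ (X i) s) = j ∧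
          (X, fun i => inner ℝ (X i) s) ∈ R} ∂(gam d b) := by
    apply Finset.sum_le_sum
    intro j _
    apply lintegral_mono
    intro X
    have hS : MeasurableSet {s | F X (fun i => inner ℝ (X i) s) = j ∧
          (X, fun i => inner ℝ (X i) s) ∈ R} := by
      have h1 : Measurable fun s : E d => ((X, fun i => inner ℝ (X i) s) : (Fin b → E d) × (Fin b → ℝ)) :=
        measurable_const.prodMk (hobs X)
      exact (h1 (hF j)).inter (h1 hRm)
    simp only [hμ]
    rw [Measure.restrict_apply hS]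
    apply measure_mono
    intro s hs
    exact ⟨⟨hs.2, hRmem X s hs.1⟩, hs.1⟩
  refine hlhs.trans (hcore.trans ?_)
  -- second term
  have hkey : (t⁻¹) ^ (b - 1) * N * D ^ (b - 1) * (κ * ENNReal.ofReal r ^ ((2 * b))) =
      q * (κ * ENNReal.ofReal r ^ ((2 * b))) := by
    have h1 : (t⁻¹) ^ (b - 1) * N * D ^ (b - 1) = q := by
      obtain ⟨c, hc⟩ : ∃ c, b = c + 1 := ⟨b - 1, by omega⟩
      have hc1 : b - 1 = c := by omega
      rw [hc1, ← hqb, hc, ht, pow_succ]
      have h2 : ((q * D)⁻¹) ^ c * (q * D) ^ c = 1 := by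
        rw [← mul_pow, ENNReal.inv_mul_cancel ht0 httop, one_pow]
      calc ((q * D)⁻¹) ^ c * (q ^ c * q) * D ^ c = ((q * D)⁻¹) ^ c * (q * D) ^ c * q := by
            rw [mul_pow q D]; ring
        _ = q := by rw [h2, one_mul]
    rw [h1]
  rw [hkey]
  have hfirst : t * ((gam d b).prod volume) R ≤
      q * (κ * ENNReal.ofReal r ^ ((2 * b))) * (A * ENNReal.ofReal C ^ d) := by
    calc t * ((gam d b).prod volume) R ≤ t * (ENNReal.ofReal C ^ d * ENNReal.ofReal r ^ b) := by gcongr
      _ = q * (κ * (ENNReal.ofReal r ^ b * ENNReal.ofReal r ^ b)) * (A * ENNReal.ofReal C ^ d) := by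
          rw [ht, hD]; ring
      _ = _ := by
          rw [← pow_add, two_mul b]
  calc t * ((gam d b).prod volume) R + q * (κ * ENNReal.ofReal r ^ ((2 * b)))
      ≤ q * (κ * ENNReal.ofReal r ^ ((2 * b))) * (A * ENNReal.ofReal C ^ d) +
        q * (κ * ENNReal.ofReal r ^ ((2 * b))) := by gcongr
    _ = q * (κ * ENNReal.ofReal r ^ ((2 * b))) * (A * ENNReal.ofReal C ^ d + 1) := by ring
    _ ≤ q * (κ * ENNReal.ofReal r ^ ((2 * b))) * ENNReal.ofReal (2 ^ 20 * C) ^ d := by
        gcongr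
        have hCpos : 0 < C := by linarith
        rw [hA, ← ENNReal.ofReal_pow hCpos.le, ← ENNReal.ofReal_mul (by positivity),
          ← ENNReal.ofReal_one, ← ENNReal.ofReal_add (by positivity) (by norm_num),
          ← ENNReal.ofReal_pow (by positivity)]
        apply ENNReal.ofReal_le_ofReal
        rw [mul_pow]
        have g1 : (1 : ℝ) ≤ C ^ d := one_le_pow₀ hC1
        have g2 : (2 : ℝ) ^ (3 * b + 2) * 3 ^ b ≤ 2 ^ (5 * d + 2) := by
          calc (2 : ℝ) ^ (3 * b + 2) * 3 ^ b ≤ 2 ^ (3 * b + 2) * 4 ^ b := by gcongr; norm_num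
            _ = 2 ^ (5 * b + 2) := by
                rw [show (4 : ℝ) = 2 ^ 2 by norm_num, ← pow_mul, ← pow_add]
                congr 1; ring
            _ ≤ 2 ^ (5 * d + 2) := by gcongr; norm_num
        have g3 : (2 : ℝ) ^ (5 * d + 2) + 1 ≤ (2 ^ 20) ^ d := by
          have : (2 : ℝ) ^ (5 * d + 2) + 1 ≤ 2 ^ (5 * d + 3) := by
            have : (1 : ℝ) ≤ 2 ^ (5 * d + 2) := one_le_pow₀ (by norm_num)
            rw [pow_succ 2 (5 * d + 2)]; linarith
          refine this.trans ?_
          rw [← pow_mul]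
          exact pow_le_pow_right₀ (by norm_num) (by omega)
        have g4 : (0 : ℝ) ≤ 2 ^ (3 * b + 2) * 3 ^ b := by positivity
        nlinarith
    _ = κ * ENNReal.ofReal (2 ^ 20 * C) ^ d * q * ENNReal.ofReal r ^ (2 * b) := by ring

theorem blockLemma_of (hR : RegionStmt) (hC : CoreStmt) : BlockLemma := by
  obtain ⟨C, hC1, d₁, hreg⟩ := hR
  refine ⟨2 ^ 20 * C, by nlinarith, max d₁ 8, ?_⟩
  intro d hd J _ κ ν hfin hfrost F hF x r hr
  have hd1 : d₁ ≤ d := (le_max_left _ _).trans hd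
  have hd8 : 8 ≤ d := (le_max_right _ _).trans hd
  have h1 : 1 ≤ bl d := by unfold bl; omega
  have h2 : bl d ≤ d := by unfold bl; omega
  exact assemble_aux h1 h2 hC1 hC J κ ν hfin hfrost F hF x r hr (hreg d hd1 x r hr)

end Crest.Agent.R322.Fr
end

-- ▼ part R322/SmallBall
section

/-!
Small-ball estimate for the standard Gaussian law: conditionally on the orthogonal projection to a
subspace `V`, the inner product with `s` has a Gaussian density bounded by
`1 / (√(2π) * dist(s, V))`.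
-/

open MeasureTheory ProbabilityTheory Set
open scoped ENNReal RealInnerProductSpace NNReal

namespace Crest.Agent.R322

/-- the Gaussian measure of an interval of radius `ρ`. -/
lemma gaussianReal_ball_le (m : ℝ) (v : ℝ≥0) (hv : v ≠ 0) (c ρ : ℝ) :
    gaussianReal m v {t | |t - c| < ρ} ≤ ENNReal.ofReal (2 * ρ / √(2 * Real.pi * v)) := by
  have hset : {t : ℝ | |t - c| < ρ} = Metric.ball c ρ := by
    ext t; simp [Real.dist_eq]
  rw [gaussianReal_apply m hv, hset]
  calc ∫⁻ x in Metric.ball c ρ, gaussianPDF m v x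
      ≤ ∫⁻ _ in Metric.ball c ρ, ENNReal.ofReal ((√(2 * Real.pi * v))⁻¹) := by
        refine lintegral_mono fun x => ?_
        rw [gaussianPDF]
        refine ENNReal.ofReal_le_ofReal ?_
        rw [gaussianPDFReal]
        have h0 : 0 ≤ (√(2 * Real.pi * v))⁻¹ := by positivity
        have h1 : Real.exp (-(x - m) ^ 2 / (2 * v)) ≤ 1 := by
          rw [Real.exp_le_one_iff]
          have : 0 ≤ (x - m) ^ 2 / (2 * (v : ℝ)) := by positivity
          have h2 : -(x - m) ^ 2 / (2 * (v : ℝ)) = -((x - m) ^ 2 / (2 * (v : ℝ))) := by ring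
          rw [h2]; linarith
        calc (√(2 * Real.pi * v))⁻¹ * Real.exp (-(x - m) ^ 2 / (2 * v))
            ≤ (√(2 * Real.pi * v))⁻¹ * 1 := mul_le_mul_of_nonneg_left h1 h0
          _ = _ := mul_one _
    _ = ENNReal.ofReal ((√(2 * Real.pi * v))⁻¹) * volume (Metric.ball c ρ) := by
        rw [setLIntegral_const]
    _ = ENNReal.ofReal ((√(2 * Real.pi * v))⁻¹) * ENNReal.ofReal (2 * ρ) := by
        rw [Real.volume_ball]
    _ = ENNReal.ofReal (2 * ρ / √(2 * Real.pi * v)) := by
        rw [← ENNReal.ofReal_mul (by positivity)]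
        congr 1
        rw [div_eq_mul_inv, mul_comm]

section

variable {E : Type*} [NormedAddCommGroup E] [InnerProductSpace ℝ E] [FiniteDimensional ℝ E]
  [MeasurableSpace E] [BorelSpace E]

lemma map_inner_stdGaussian (w : E) :
    (stdGaussian E).map (fun x => ⟪w, x⟫) = gaussianReal 0 (‖w‖₊ ^ 2) := by
  have h := IsGaussian.map_eq_gaussianReal (μ := stdGaussian E) (innerSL ℝ w)
  have h1 : (fun x : E => ⟪w, x⟫) = ⇑(innerSL ℝ w) := by ext x; simp
  rw [h1, h]
  congr 1
  · exact integral_strongDual_stdGaussian _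
  · rw [variance_dual_stdGaussian, innerSL_apply_norm]
    ext
    simp

/-- Independence of the orthogonal projection to `V` and of the inner product with a vector
orthogonal to `V`. -/
lemma indepFun_starProjection_inner (V : Submodule ℝ E) (w : E) (hw : w ∈ Vᗮ) :
    IndepFun (fun x : E => V.starProjection x) (fun x : E => ⟪w, x⟫) (stdGaussian E) := by
  have : CompleteSpace E := FiniteDimensional.complete ℝ E
  refine HasGaussianLaw.indepFun_of_covariance_inner ?_ ?_
  · have h := (IsGaussian.hasGaussianLaw_id (μ := stdGaussian E)).map_fun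
      ((V.starProjection).prod (innerSL ℝ w))
    simpa using h
  · intro x y
    have h1 : (fun ω : E => inner ℝ x (V.starProjection ω)) = fun ω => ⟪V.starProjection x, ω⟫ := by
      ext ω
      exact (V.inner_starProjection_left_eq_right x ω).symm
    have h2 : (fun ω : E => inner ℝ y (⟪w, ω⟫ : ℝ)) = fun ω => ⟪y • w, ω⟫ := by
      ext ω
      rw [inner_smul_left]
      simp [mul_comm]
    rw [h1, h2, ← covarianceBilin_apply_eq_cov IsGaussian.memLp_two_id,
      covarianceBilin_stdGaussian]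
    rw [innerSL_apply_apply, inner_smul_right]
    have h3 : ⟪V.starProjection x, w⟫ = 0 :=
      Submodule.inner_right_of_mem_orthogonal (Submodule.starProjection_apply_mem V x) hw
    rw [h3, mul_zero]

/-- **Small ball lemma.** If `A` only depends on the projection to `V`, then the Gaussian measure
of `A ∩ {|⟪x, s⟫ - y| < ρ}` is at most `2ρ/√(2π) / ‖P_{Vᗮ} s‖` times the measure of `A`. -/
theorem smallBall_general (V : Submodule ℝ E) (A : Set E) (hA : MeasurableSet A)
    (hAV : ∀ x, V.starProjection x ∈ A ↔ x ∈ A) (s : E) (y ρ : ℝ) :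
    stdGaussian E ({x | |⟪x, s⟫ - y| < ρ} ∩ A) ≤
      ENNReal.ofReal (2 * ρ / √(2 * Real.pi)) *
        (ENNReal.ofReal ‖Vᗮ.starProjection s‖)⁻¹ * stdGaussian E A := by
  by_cases hρ : ρ ≤ 0
  · have : {x : E | |⟪x, s⟫ - y| < ρ} = ∅ := by
      ext x
      simp only [mem_ofPred_eq, mem_empty_iff_false, iff_false, not_lt]
      exact hρ.trans (abs_nonneg _)
    rw [this]
    simp
  push Not at hρ
  set w := Vᗮ.starProjection s with hw
  set p := V.starProjection s with hp
  have hwV : w ∈ Vᗮ := Submodule.starProjection_apply_mem _ _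
  have hsum : s = p + w := by
    rw [hp, hw]
    exact (V.starProjection_add_starProjection_orthogonal s).symm
  by_cases hw0 : w = 0
  · by_cases hA0 : stdGaussian E A = 0
    · rw [hA0, mul_zero]
      exact le_of_eq (measure_mono_null inter_subset_right hA0)
    · have h1 : (ENNReal.ofReal ‖w‖)⁻¹ = ⊤ := by simp [hw0]
      have h2 : ENNReal.ofReal (2 * ρ / √(2 * Real.pi)) ≠ 0 := by
        rw [Ne, ENNReal.ofReal_eq_zero, not_le]
        positivity
      rw [h1, ENNReal.mul_top h2, ENNReal.top_mul hA0]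
      exact le_top
  have hwn : 0 < ‖w‖ := norm_pos_iff.mpr hw0
  have hind := indepFun_starProjection_inner V w hwV
  have hX : Measurable (fun x : E => V.starProjection x) := V.starProjection.continuous.measurable
  have hY : Measurable (fun x : E => ⟪w, x⟫) := by fun_prop
  rw [indepFun_iff_map_prod_eq_prod_map_map hX.aemeasurable hY.aemeasurable] at hind
  set S : Set (E × ℝ) := {q | |q.2 - (y - ⟪q.1, p⟫)| < ρ} ∩ (Prod.fst ⁻¹' A) with hS
  have hSm : MeasurableSet S := by
    refine MeasurableSet.inter ?_ (measurable_fst hA)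
    exact measurableSet_lt (by fun_prop) measurable_const
  have hpre : ({x | |⟪x, s⟫ - y| < ρ} ∩ A) =
      (fun x : E => (V.starProjection x, ⟪w, x⟫)) ⁻¹' S := by
    ext x
    simp only [mem_inter_iff, mem_ofPred_eq, mem_preimage, hS, hAV]
    have h1 : ⟪x, s⟫ - y = ⟪w, x⟫ - (y - ⟪V.starProjection x, p⟫) := by
      have h2 : ⟪x, p⟫ = ⟪V.starProjection x, p⟫ := by
        rw [hp, ← V.inner_starProjection_left_eq_right, ← V.inner_starProjection_left_eq_right]
        rw [Submodule.starProjection_eq_self_iff.mpr (Submodule.starProjection_apply_mem V x)]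
      rw [hsum, inner_add_right, h2, real_inner_comm w x]
      ring
    rw [h1]
  rw [hpre, ← Measure.map_apply (hX.prodMk hY) hSm, hind, Measure.prod_apply hSm]
  have hbound : ∀ a : E, ((stdGaussian E).map (fun x : E => ⟪w, x⟫)) (Prod.mk a ⁻¹' S) ≤
      A.indicator (fun _ => ENNReal.ofReal (2 * ρ / √(2 * Real.pi)) *
        (ENNReal.ofReal ‖w‖)⁻¹) a := by
    intro a
    by_cases haA : a ∈ A
    · rw [indicator_of_mem haA]
      have : Prod.mk a ⁻¹' S = {t : ℝ | |t - (y - ⟪a, p⟫)| < ρ} := by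
        ext t
        simp [hS, haA]
      rw [this, map_inner_stdGaussian]
      refine (gaussianReal_ball_le 0 _ (by simpa using hw0) _ _).trans ?_
      rw [← ENNReal.ofReal_inv_of_pos hwn, ← ENNReal.ofReal_mul (by positivity)]
      refine ENNReal.ofReal_le_ofReal (le_of_eq ?_)
      have : √(2 * Real.pi * ((‖w‖₊ ^ 2 : ℝ≥0) : ℝ)) = √(2 * Real.pi) * ‖w‖ := by
        rw [Real.sqrt_mul (by positivity)]
        congr 1
        push_cast
        rw [Real.sqrt_sq hwn.le]
      rw [this]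
      field_simp
    · rw [indicator_of_notMem haA]
      have : Prod.mk a ⁻¹' S = ∅ := by
        ext t
        simp [hS, haA]
      rw [this]
      simp
  refine (lintegral_mono hbound).trans ?_
  rw [lintegral_indicator hA, setLIntegral_const, Measure.map_apply hX hA]
  refine mul_le_mul_right ?_ _
  refine measure_mono ?_
  intro x hx
  exact (hAV x).mp hx

/-- The small ball lemma for finite lists of constraints. -/
theorem smallBall (l : List E) (s : E) (y : ℝ) (ρ : ℝ) :
    stdGaussian E {x | |⟪x, s⟫ - y| < ρ ∧ ∀ u ∈ l, |⟪x, u⟫ - y| < ρ} ≤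
      ENNReal.ofReal (2 * ρ / √(2 * Real.pi)) *
        (ENNReal.ofReal ‖(Submodule.span ℝ {u | u ∈ l})ᗮ.starProjection s‖)⁻¹ *
        stdGaussian E {x | ∀ u ∈ l, |⟪x, u⟫ - y| < ρ} := by
  refine smallBall_general (Submodule.span ℝ {u | u ∈ l})
    {x | ∀ u ∈ l, |⟪x, u⟫ - y| < ρ} ?_ ?_ s y ρ
  · have : {x : E | ∀ u ∈ l, |⟪x, u⟫ - y| < ρ} = ⋂ u ∈ {u | u ∈ l}, {x | |⟪x, u⟫ - y| < ρ} := by
      ext x; simp
    rw [this]
    refine MeasurableSet.biInter (List.finite_toSet l).countable fun u _ => ?_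
    exact measurableSet_lt (by fun_prop) measurable_const
  · intro x
    simp only [mem_ofPred_eq]
    refine forall₂_congr fun u hu => ?_
    have hu' : u ∈ Submodule.span ℝ {u | u ∈ l} := Submodule.subset_span hu
    have : ⟪(Submodule.span ℝ {u | u ∈ l}).starProjection x, u⟫ = ⟪x, u⟫ := by
      rw [Submodule.inner_starProjection_left_eq_right,
        Submodule.starProjection_eq_self_iff.mpr hu']
    rw [this]

end

end Crest.Agent.R322
end

-- ▼ part R322/Moments
section

/-!
Moment bound for the law of `X s` (`X` a block of `k` Gaussian rows, `s` distributed according to a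
finite measure `μ` with a negative-power energy bound for the distance to small subspaces).
-/

open MeasureTheory ProbabilityTheory Set
open scoped ENNReal RealInnerProductSpace NNReal

namespace Crest.Agent.R322

section

variable {E : Type*} [NormedAddCommGroup E] [InnerProductSpace ℝ E] [FiniteDimensional ℝ E]
  [MeasurableSpace E] [BorelSpace E]

/-- block version of the small ball lemma -/
theorem smallBall_block (k : ℕ) (l : List E) (s : E) (y : Fin k → ℝ) (ρ : ℝ) :
    (Measure.pi fun _ : Fin k => stdGaussian E)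
        {X | ∀ i, ∀ u ∈ s :: l, |⟪X i, u⟫ - y i| < ρ} ≤
      (ENNReal.ofReal (2 * ρ / √(2 * Real.pi)) *
        (ENNReal.ofReal ‖(Submodule.span ℝ {u | u ∈ l})ᗮ.starProjection s‖)⁻¹) ^ k *
      (Measure.pi fun _ : Fin k => stdGaussian E) {X | ∀ i, ∀ u ∈ l, |⟪X i, u⟫ - y i| < ρ} := by
  have h1 : {X : Fin k → E | ∀ i, ∀ u ∈ s :: l, |⟪X i, u⟫ - y i| < ρ} =
      univ.pi fun i => {x : E | |⟪x, s⟫ - y i| < ρ ∧ ∀ u ∈ l, |⟪x, u⟫ - y i| < ρ} := by
    ext X; simp
  have h2 : {X : Fin k → E | ∀ i, ∀ u ∈ l, |⟪X i, u⟫ - y i| < ρ} =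
      univ.pi fun i => {x : E | ∀ u ∈ l, |⟪x, u⟫ - y i| < ρ} := by
    ext X; simp
  rw [h1, h2, Measure.pi_pi, Measure.pi_pi]
  calc ∏ i : Fin k, stdGaussian E {x : E | |⟪x, s⟫ - y i| < ρ ∧ ∀ u ∈ l, |⟪x, u⟫ - y i| < ρ}
      ≤ ∏ i : Fin k, (ENNReal.ofReal (2 * ρ / √(2 * Real.pi)) *
        (ENNReal.ofReal ‖(Submodule.span ℝ {u | u ∈ l})ᗮ.starProjection s‖)⁻¹ *
        stdGaussian E {x : E | ∀ u ∈ l, |⟪x, u⟫ - y i| < ρ}) :=
        Finset.prod_le_prod' fun i _ => smallBall l s (y i) ρ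
    _ = _ := by
        rw [Finset.prod_mul_distrib, Finset.prod_const, Finset.card_univ, Fintype.card_fin]

lemma measurableSet_obs {k : ℕ} (y : Fin k → ℝ) (ρ : ℝ) :
    MeasurableSet {q : (Fin k → E) × E | ∀ i, |⟪q.1 i, q.2⟫ - y i| < ρ} := by
  have : {q : (Fin k → E) × E | ∀ i, |⟪q.1 i, q.2⟫ - y i| < ρ} =
      ⋂ i, {q : (Fin k → E) × E | |⟪q.1 i, q.2⟫ - y i| < ρ} := by
    ext q; simp
  rw [this]
  refine MeasurableSet.iInter fun i => measurableSet_lt ?_ measurable_const
  fun_prop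

lemma measurable_measure_obs {k : ℕ} (μ : Measure E) [SFinite μ] (y : Fin k → ℝ) (ρ : ℝ) :
    Measurable fun X : Fin k → E => μ {s | ∀ i, |⟪X i, s⟫ - y i| < ρ} :=
  measurable_measure_prodMk_left (measurableSet_obs y ρ)

lemma measurableSet_list {k : ℕ} (l : List E) (y : Fin k → ℝ) (ρ : ℝ) :
    MeasurableSet {X : Fin k → E | ∀ i, ∀ u ∈ l, |⟪X i, u⟫ - y i| < ρ} := by
  have : {X : Fin k → E | ∀ i, ∀ u ∈ l, |⟪X i, u⟫ - y i| < ρ} =
      ⋂ i, ⋂ u ∈ {u | u ∈ l}, {X : Fin k → E | |⟪X i, u⟫ - y i| < ρ} := by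
    ext q; simp
  rw [this]
  refine MeasurableSet.iInter fun i => ?_
  refine MeasurableSet.biInter (List.finite_toSet l).countable fun u _ => ?_
  exact measurableSet_lt (by fun_prop) measurable_const

/-- **Moment lemma**, inductive form. -/
theorem moments_aux {k : ℕ} (μ : Measure E) [SFinite μ] (K : ℕ) (D : ℝ≥0∞)
    (hD : ∀ V : Submodule ℝ E, Module.finrank ℝ V < K →
      ∫⁻ s, ((ENNReal.ofReal ‖Vᗮ.starProjection s‖)⁻¹) ^ k ∂μ ≤ D)
    (y : Fin k → ℝ) (ρ : ℝ) (n : ℕ) :
    ∀ l : List E, l.length + n ≤ K →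
      ∫⁻ X : Fin k → E, {X : Fin k → E | ∀ i, ∀ u ∈ l, |⟪X i, u⟫ - y i| < ρ}.indicator
        (fun X => (μ {s | ∀ i, |⟪X i, s⟫ - y i| < ρ}) ^ n) X
        ∂(Measure.pi fun _ : Fin k => stdGaussian E) ≤
      ((ENNReal.ofReal (2 * ρ / √(2 * Real.pi))) ^ k * D) ^ n *
        (Measure.pi fun _ : Fin k => stdGaussian E)
          {X | ∀ i, ∀ u ∈ l, |⟪X i, u⟫ - y i| < ρ} := by
  induction n with
  | zero =>
    intro l _
    simp only [pow_zero, one_mul]
    rw [lintegral_indicator (measurableSet_list l y ρ)]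
    simp
  | succ n ih =>
    intro l hl
    set P : Measure (Fin k → E) := Measure.pi fun _ : Fin k => stdGaussian E with hP
    set c : ℝ≥0∞ := ENNReal.ofReal (2 * ρ / √(2 * Real.pi)) with hc
    set ν : (Fin k → E) → ℝ≥0∞ := fun X => μ {s | ∀ i, |⟪X i, s⟫ - y i| < ρ} with hν
    set S : Set ((Fin k → E) × E) := {q | ∀ i, |⟪q.1 i, q.2⟫ - y i| < ρ} with hS
    have hSm : MeasurableSet S := measurableSet_obs y ρ
    have hνm : Measurable ν := measurable_measure_obs μ y ρ
    set Al : Set (Fin k → E) := {X | ∀ i, ∀ u ∈ l, |⟪X i, u⟫ - y i| < ρ} with hAl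
    have hAlm : MeasurableSet Al := measurableSet_list l y ρ
    -- rewrite the integrand
    have h1 : ∀ X : Fin k → E, Al.indicator (fun X => ν X ^ (n + 1)) X =
        ∫⁻ s, S.indicator (fun q => Al.indicator (fun X => ν X ^ n) q.1) (X, s) ∂μ := by
      intro X
      have h2 : ∀ s, S.indicator (fun q => Al.indicator (fun X => ν X ^ n) q.1) (X, s) =
          {s | ∀ i, |⟪X i, s⟫ - y i| < ρ}.indicator
            (fun _ => Al.indicator (fun X => ν X ^ n) X) s := by
        intro s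
        by_cases hs : (X, s) ∈ S
        · have hs' : s ∈ {s | ∀ i, |⟪X i, s⟫ - y i| < ρ} := hs
          rw [indicator_of_mem hs, indicator_of_mem hs']
        · have hs' : s ∉ {s | ∀ i, |⟪X i, s⟫ - y i| < ρ} := hs
          rw [indicator_of_notMem hs, indicator_of_notMem hs']
      have h20 : MeasurableSet {s : E | ∀ i, |⟪X i, s⟫ - y i| < ρ} := measurable_prodMk_left hSm
      rw [lintegral_congr h2, lintegral_indicator h20, setLIntegral_const]
      by_cases hX : X ∈ Al
      · rw [indicator_of_mem hX, indicator_of_mem hX, pow_succ]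
      · rw [indicator_of_notMem hX, indicator_of_notMem hX, zero_mul]
    rw [lintegral_congr h1]
    have hmeas : Measurable (fun q : (Fin k → E) × E =>
        S.indicator (fun q => Al.indicator (fun X => ν X ^ n) q.1) q) := by
      refine Measurable.indicator ?_ hSm
      exact ((hνm.pow_const n).indicator hAlm).comp measurable_fst
    rw [lintegral_lintegral_swap hmeas.aemeasurable]
    -- bound the inner integral
    have h3 : ∀ s : E, ∫⁻ X, S.indicator (fun q => Al.indicator (fun X => ν X ^ n) q.1) (X, s) ∂P ≤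
        (c ^ k * D) ^ n * (c ^ k * ((ENNReal.ofReal
          ‖(Submodule.span ℝ {u | u ∈ l})ᗮ.starProjection s‖)⁻¹) ^ k * P Al) := by
      intro s
      have h4 : ∀ X, S.indicator (fun q => Al.indicator (fun X => ν X ^ n) q.1) (X, s) =
          {X : Fin k → E | ∀ i, ∀ u ∈ s :: l, |⟪X i, u⟫ - y i| < ρ}.indicator
            (fun X => ν X ^ n) X := by
        intro X
        by_cases hX : X ∈ {X : Fin k → E | ∀ i, ∀ u ∈ s :: l, |⟪X i, u⟫ - y i| < ρ}
        · rw [indicator_of_mem hX]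
          have ha : (X, s) ∈ S := fun i => hX i s (by simp)
          have hb : X ∈ Al := fun i u hu => hX i u (by simp [hu])
          rw [indicator_of_mem ha, indicator_of_mem hb]
        · rw [indicator_of_notMem hX]
          by_cases ha : (X, s) ∈ S
          · rw [indicator_of_mem ha]
            have hb : X ∉ Al := by
              intro hb
              apply hX
              intro i u hu
              rcases List.mem_cons.mp hu with rfl | hu
              · exact ha i
              · exact hb i u hu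
            rw [indicator_of_notMem hb]
          · rw [indicator_of_notMem ha]
      rw [lintegral_congr h4]
      refine (ih (s :: l) (by simp only [List.length_cons]; omega)).trans ?_
      refine mul_le_mul_right ?_ _
      refine (smallBall_block k l s y ρ).trans ?_
      rw [mul_pow]
    refine (lintegral_mono h3).trans ?_
    have hfr : Module.finrank ℝ (Submodule.span ℝ {u | u ∈ l}) < K := by
      classical
      have h5 : {u | u ∈ l} = ((l.toFinset : Finset E) : Set E) := by ext u; simp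
      have h6 : Module.finrank ℝ (Submodule.span ℝ ((l.toFinset : Finset E) : Set E)) ≤
          l.toFinset.card := finrank_span_finset_le_card _
      rw [h5]
      have h7 := List.toFinset_card_le l
      omega
    have hperp : Measurable fun s : E => ((ENNReal.ofReal
        ‖(Submodule.span ℝ {u | u ∈ l})ᗮ.starProjection s‖)⁻¹) ^ k := by
      fun_prop
    calc ∫⁻ s, (c ^ k * D) ^ n * (c ^ k * ((ENNReal.ofReal
          ‖(Submodule.span ℝ {u | u ∈ l})ᗮ.starProjection s‖)⁻¹) ^ k * P Al) ∂μ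
        = (c ^ k * D) ^ n * (c ^ k * (∫⁻ s, ((ENNReal.ofReal
          ‖(Submodule.span ℝ {u | u ∈ l})ᗮ.starProjection s‖)⁻¹) ^ k ∂μ) * P Al) := by
          rw [lintegral_const_mul _ (by fun_prop), lintegral_mul_const _ (by fun_prop),
            lintegral_const_mul _ hperp]
      _ ≤ (c ^ k * D) ^ n * (c ^ k * D * P Al) := by
          gcongr
          exact hD _ hfr
      _ = (c ^ k * D) ^ (n + 1) * P Al := by
          rw [pow_succ]; ring


end

end Crest.Agent.R322
end

-- ▼ part R322/Regularity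
section

/-!
Regularity lemma: a finite measure on `ℝ^k` whose smoothed densities have bounded `q`-th moments
on an open set `B` gives small mass to sets of small volume.
-/

open MeasureTheory Set Filter Topology
open scoped ENNReal NNReal

namespace Crest.Agent.R322

lemma cube_eq_ball {k : ℕ} (y : Fin k → ℝ) {ρ : ℝ} (hρ : 0 < ρ) :
    {z : Fin k → ℝ | ∀ i, |z i - y i| < ρ} = Metric.ball y ρ := by
  ext z
  rw [Metric.mem_ball, dist_pi_lt_iff hρ]
  simp [Real.dist_eq]

lemma measurableSet_cube {k : ℕ} (ρ : ℝ) :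
    MeasurableSet {p : (Fin k → ℝ) × (Fin k → ℝ) | ∀ i, |p.2 i - p.1 i| < ρ} := by
  have : {p : (Fin k → ℝ) × (Fin k → ℝ) | ∀ i, |p.2 i - p.1 i| < ρ} =
      ⋂ i, {p : (Fin k → ℝ) × (Fin k → ℝ) | |p.2 i - p.1 i| < ρ} := by
    ext q; simp
  rw [this]
  refine MeasurableSet.iInter fun i => measurableSet_lt ?_ measurable_const
  fun_prop

/-- Averaging: the mass of `C` is at most the integral over the `ρ`-neighbourhood of the
smoothed density. -/
lemma measure_le_lintegral_cube {k : ℕ} (ν : Measure (Fin k → ℝ)) [IsFiniteMeasure ν]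
    {C U : Set (Fin k → ℝ)} (hC : MeasurableSet C) {ρ : ℝ} (hρ : 0 < ρ)
    (hCU : Metric.thickening ρ C ⊆ U) (hU : MeasurableSet U) :
    ν C ≤ ∫⁻ y in U, (ENNReal.ofReal (2 * ρ))⁻¹ ^ k * ν {z | ∀ i, |z i - y i| < ρ} := by
  have hvol : ∀ z : Fin k → ℝ, volume {y : Fin k → ℝ | ∀ i, |z i - y i| < ρ} =
      (ENNReal.ofReal (2 * ρ)) ^ k := by
    intro z
    have h1 : {y : Fin k → ℝ | ∀ i, |z i - y i| < ρ} = {y | ∀ i, |y i - z i| < ρ} := by
      ext y; simp only [mem_ofPred_eq]
      exact forall_congr' fun i => by rw [abs_sub_comm]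
    rw [h1, cube_eq_ball z hρ, Real.volume_pi_ball _ hρ, Fintype.card_fin,
      ENNReal.ofReal_pow (by positivity)]
  have hc0 : (ENNReal.ofReal (2 * ρ)) ^ k ≠ 0 := by
    apply pow_ne_zero
    rw [Ne, ENNReal.ofReal_eq_zero, not_le]
    positivity
  have hct : (ENNReal.ofReal (2 * ρ)) ^ k ≠ ⊤ := ENNReal.pow_ne_top ENNReal.ofReal_ne_top
  rw [lintegral_const_mul]
  swap
  · exact (measurable_measure_prodMk_left (measurableSet_cube ρ))
  rw [← ENNReal.inv_pow, mul_comm, ← div_eq_mul_inv, ENNReal.le_div_iff_mul_le (Or.inl hc0)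
    (Or.inl hct)]
  -- Tonelli
  have h2 : ν C * (ENNReal.ofReal (2 * ρ)) ^ k =
      ∫⁻ z in C, volume {y : Fin k → ℝ | ∀ i, |z i - y i| < ρ} ∂ν := by
    rw [lintegral_congr hvol, setLIntegral_const, mul_comm]
  have hS : MeasurableSet {p : (Fin k → ℝ) × (Fin k → ℝ) | ∀ i, |p.1 i - p.2 i| < ρ} := by
    have h := measurableSet_cube (k := k) ρ
    have h3 : {p : (Fin k → ℝ) × (Fin k → ℝ) | ∀ i, |p.1 i - p.2 i| < ρ} =
        {p : (Fin k → ℝ) × (Fin k → ℝ) | ∀ i, |p.2 i - p.1 i| < ρ} := by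
      ext p; simp only [mem_ofPred_eq]
      exact forall_congr' fun i => by rw [abs_sub_comm]
    rw [h3]; exact h
  have h4 : ∫⁻ z in C, volume {y : Fin k → ℝ | ∀ i, |z i - y i| < ρ} ∂ν =
      ∫⁻ y : Fin k → ℝ, (ν.restrict C) {z : Fin k → ℝ | ∀ i, |z i - y i| < ρ} := by
    have h5 := Measure.prod_apply (μ := ν.restrict C) (ν := (volume : Measure (Fin k → ℝ))) hS
    have h6 := Measure.prod_apply_symm (μ := ν.restrict C)
      (ν := (volume : Measure (Fin k → ℝ))) hS
    rw [h5] at h6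
    exact h6
  rw [h2, h4]
  have h7 : ∀ y : Fin k → ℝ, (ν.restrict C) {z : Fin k → ℝ | ∀ i, |z i - y i| < ρ} ≤
      U.indicator (fun y => ν {z | ∀ i, |z i - y i| < ρ}) y := by
    intro y
    by_cases hy : y ∈ U
    · rw [indicator_of_mem hy]
      exact Measure.restrict_apply_le _ _
    · rw [indicator_of_notMem hy, nonpos_iff_eq_zero, Measure.restrict_apply' hC]
      have : {z : Fin k → ℝ | ∀ i, |z i - y i| < ρ} ∩ C = ∅ := by
        rw [eq_empty_iff_forall_notMem]
        rintro z ⟨hz, hzC⟩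
        apply hy
        apply hCU
        rw [Metric.mem_thickening_iff]
        refine ⟨z, hzC, ?_⟩
        rw [dist_comm]
        have : z ∈ Metric.ball y ρ := by rw [← cube_eq_ball y hρ]; exact hz
        exact this
      rw [this]
      exact measure_empty
  refine (lintegral_mono h7).trans ?_
  rw [lintegral_indicator hU]

lemma le_add_pow {q : ℕ} (hq : 1 ≤ q) {t : ℝ≥0∞} (ht0 : t ≠ 0) (htt : t ≠ ⊤) (a : ℝ≥0∞) :
    a ≤ t + (t⁻¹) ^ (q - 1) * a ^ q := by
  rcases le_total a t with h | h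
  · exact h.trans le_self_add
  · refine le_trans ?_ le_add_self
    obtain ⟨m, rfl⟩ : ∃ m, q = m + 1 := ⟨q - 1, by omega⟩
    rw [Nat.add_sub_cancel, pow_succ, ← mul_assoc, ← mul_pow]
    have h1 : 1 ≤ t⁻¹ * a := by
      rw [← ENNReal.inv_mul_cancel ht0 htt]
      gcongr
    calc a = 1 ^ m * a := by simp
      _ ≤ (t⁻¹ * a) ^ m * a := by gcongr

/-- **Regularity lemma.** -/
theorem regularity {k q : ℕ} (hq : 1 ≤ q) (ν : Measure (Fin k → ℝ)) [IsFiniteMeasure ν]
    {B' B : Set (Fin k → ℝ)} (hB' : MeasurableSet B') (hBo : IsOpen B) (hsub : B' ⊆ B)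
    (t : ℝ≥0∞) (ht0 : t ≠ 0) (htt : t ≠ ⊤) (ρ : ℕ → ℝ) (hρ : ∀ n, 0 < ρ n)
    (hρ0 : Tendsto ρ atTop (𝓝 0)) :
    ν B' ≤ t * volume B' + (t⁻¹) ^ (q - 1) *
      liminf (fun n => ∫⁻ y in B,
        ((ENNReal.ofReal (2 * ρ n))⁻¹ ^ k * ν {z | ∀ i, |z i - y i| < ρ n}) ^ q) atTop := by
  set R : ℝ≥0∞ := (t⁻¹) ^ (q - 1) *
      liminf (fun n => ∫⁻ y in B,
        ((ENNReal.ofReal (2 * ρ n))⁻¹ ^ k * ν {z | ∀ i, |z i - y i| < ρ n}) ^ q) atTop with hR
  -- compact sets
  have key : ∀ C : Set (Fin k → ℝ), IsCompact C → C ⊆ B' → ν C ≤ t * volume B' + R := by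
    intro C hC hCB'
    have hCm : MeasurableSet C := hC.isClosed.measurableSet
    -- open sets
    have key2 : ∀ U : Set (Fin k → ℝ), IsOpen U → C ⊆ U → U ⊆ B → ν C ≤ t * volume U + R := by
      intro U hU hCU hUB
      obtain ⟨δ, hδ, hδU⟩ := hC.exists_thickening_subset_open hU hCU
      have hev : ∀ᶠ n in atTop, ρ n < δ := by
        have := (tendsto_order.1 hρ0).2 δ hδ
        exact this
      have hle : ∀ᶠ n in atTop, ν C ≤ t * volume U + (t⁻¹) ^ (q - 1) * ∫⁻ y in B,
          ((ENNReal.ofReal (2 * ρ n))⁻¹ ^ k * ν {z | ∀ i, |z i - y i| < ρ n}) ^ q := by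
        filter_upwards [hev] with n hn
        have h1 := measure_le_lintegral_cube ν hCm (hρ n)
          ((Metric.thickening_mono hn.le C).trans hδU) hU.measurableSet
        refine h1.trans ?_
        have hm : Measurable fun y : Fin k → ℝ =>
            ((ENNReal.ofReal (2 * ρ n))⁻¹ ^ k * ν {z | ∀ i, |z i - y i| < ρ n}) ^ q :=
          ((measurable_measure_prodMk_left (measurableSet_cube (ρ n))).const_mul _).pow_const q
        calc ∫⁻ y in U, (ENNReal.ofReal (2 * ρ n))⁻¹ ^ k * ν {z | ∀ i, |z i - y i| < ρ n}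
            ≤ ∫⁻ y in U, (t + (t⁻¹) ^ (q - 1) *
              ((ENNReal.ofReal (2 * ρ n))⁻¹ ^ k * ν {z | ∀ i, |z i - y i| < ρ n}) ^ q) :=
              lintegral_mono fun y => le_add_pow hq ht0 htt _
          _ = t * volume U + (t⁻¹) ^ (q - 1) * ∫⁻ y in U,
              ((ENNReal.ofReal (2 * ρ n))⁻¹ ^ k * ν {z | ∀ i, |z i - y i| < ρ n}) ^ q := by
              rw [lintegral_add_left measurable_const, setLIntegral_const,
                lintegral_const_mul _ hm]
          _ ≤ _ := by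
              gcongr
      have hge : ν C - t * volume U ≤ liminf (fun n => (t⁻¹) ^ (q - 1) * ∫⁻ y in B,
          ((ENNReal.ofReal (2 * ρ n))⁻¹ ^ k * ν {z | ∀ i, |z i - y i| < ρ n}) ^ q) atTop := by
        refine le_liminf_of_le (by isBoundedDefault) ?_
        filter_upwards [hle] with n hn
        exact tsub_le_iff_left.mpr hn
      rw [ENNReal.liminf_const_mul_of_ne_top
        (ENNReal.pow_ne_top (ENNReal.inv_ne_top.mpr ht0))] at hge
      exact tsub_le_iff_left.mp hge
    -- outer regularity of the volume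
    by_cases hvt : volume B' = ⊤
    · rw [hvt, ENNReal.mul_top ht0, top_add]
      exact le_top
    have hvC : volume C ≠ ⊤ := ne_top_of_le_ne_top hvt (measure_mono hCB')
    refine ENNReal.le_of_forall_pos_le_add fun ε hε _ => ?_
    have hε' : ((ε : ℝ≥0∞) / t) ≠ 0 := by
      refine ENNReal.div_ne_zero.mpr ⟨by exact_mod_cast hε.ne', htt⟩
    obtain ⟨U0, hCU0, hU0, hU0v⟩ := C.exists_isOpen_lt_add (μ := volume) hvC hε'
    have h3 := key2 (U0 ∩ B) (hU0.inter hBo) (subset_inter hCU0 (hCB'.trans hsub))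
      inter_subset_right
    calc ν C ≤ t * volume (U0 ∩ B) + R := h3
      _ ≤ t * (volume B' + ε / t) + R := by
          gcongr
          calc volume (U0 ∩ B) ≤ volume U0 := measure_mono inter_subset_left
            _ ≤ volume C + ε / t := hU0v.le
            _ ≤ volume B' + ε / t := by gcongr
      _ = t * volume B' + R + ε := by
          rw [mul_add, ENNReal.mul_div_cancel ht0 htt]
          ring
  -- inner regularity of ν
  rw [hB'.measure_eq_iSup_isCompact_of_ne_top (measure_ne_top ν B')]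
  refine iSup_le fun C => iSup_le fun hCB' => iSup_le fun hC => ?_
  exact key C hC hCB'

end Crest.Agent.R322
end

-- ▼ part R322/BlockCore
section

/-!
Core of the block lemma: a message `F (X, X s)` with values in a finite set `J` cannot concentrate
measures with bounded negative energy.
-/

open MeasureTheory ProbabilityTheory Set Filter Topology
open scoped ENNReal RealInnerProductSpace NNReal

namespace Crest.Agent.R322

section

variable {E : Type*} [NormedAddCommGroup E] [InnerProductSpace ℝ E] [FiniteDimensional ℝ E]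
  [MeasurableSpace E] [BorelSpace E]

lemma measurableSet_obs3 {k : ℕ} (ρ : ℝ) :
    MeasurableSet {q : ((Fin k → E) × (Fin k → ℝ)) × E | ∀ i, |⟪q.1.1 i, q.2⟫ - q.1.2 i| < ρ} := by
  have : {q : ((Fin k → E) × (Fin k → ℝ)) × E | ∀ i, |⟪q.1.1 i, q.2⟫ - q.1.2 i| < ρ} =
      ⋂ i, {q : ((Fin k → E) × (Fin k → ℝ)) × E | |⟪q.1.1 i, q.2⟫ - q.1.2 i| < ρ} := by
    ext q; simp
  rw [this]
  refine MeasurableSet.iInter fun i => measurableSet_lt ?_ measurable_const
  fun_prop

lemma measurableSet_obs3' {k : ℕ} (ρ : ℝ) :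
    MeasurableSet {q : ((Fin k → ℝ) × E) × (Fin k → E) | ∀ i, |⟪q.2 i, q.1.2⟫ - q.1.1 i| < ρ} := by
  have : {q : ((Fin k → ℝ) × E) × (Fin k → E) | ∀ i, |⟪q.2 i, q.1.2⟫ - q.1.1 i| < ρ} =
      ⋂ i, {q : ((Fin k → ℝ) × E) × (Fin k → E) | |⟪q.2 i, q.1.2⟫ - q.1.1 i| < ρ} := by
    ext q; simp
  rw [this]
  refine MeasurableSet.iInter fun i => measurableSet_lt ?_ measurable_const
  fun_prop

lemma measurableSet_obs2 {k : ℕ} (s : E) (ρ : ℝ) :
    MeasurableSet {q : (Fin k → E) × (Fin k → ℝ) | ∀ i, |⟪q.1 i, s⟫ - q.2 i| < ρ} := by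
  have : {q : (Fin k → E) × (Fin k → ℝ) | ∀ i, |⟪q.1 i, s⟫ - q.2 i| < ρ} =
      ⋂ i, {q : (Fin k → E) × (Fin k → ℝ) | |⟪q.1 i, s⟫ - q.2 i| < ρ} := by
    ext q; simp
  rw [this]
  refine MeasurableSet.iInter fun i => measurableSet_lt ?_ measurable_const
  fun_prop

lemma volume_cube {k : ℕ} (z : Fin k → ℝ) {ρ : ℝ} (hρ : 0 < ρ) :
    volume {y : Fin k → ℝ | ∀ i, |z i - y i| < ρ} = (ENNReal.ofReal (2 * ρ)) ^ k := by
  have h1 : {y : Fin k → ℝ | ∀ i, |z i - y i| < ρ} = {y | ∀ i, |y i - z i| < ρ} := by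
    ext y; simp only [mem_ofPred_eq]
    exact forall_congr' fun i => by rw [abs_sub_comm]
  rw [h1, cube_eq_ball z hρ, Real.volume_pi_ball _ hρ, Fintype.card_fin,
    ENNReal.ofReal_pow (by positivity)]

lemma lintegral_measure_cube {k : ℕ} (s : E) {ρ : ℝ} (hρ : 0 < ρ) :
    ∫⁻ y : Fin k → ℝ, (Measure.pi fun _ : Fin k => stdGaussian E)
      {X | ∀ i, |⟪X i, s⟫ - y i| < ρ} = (ENNReal.ofReal (2 * ρ)) ^ k := by
  have hS := measurableSet_obs2 (k := k) s ρ
  have h5 := Measure.prod_apply (μ := Measure.pi fun _ : Fin k => stdGaussian E)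
    (ν := (volume : Measure (Fin k → ℝ))) hS
  have h6 := Measure.prod_apply_symm (μ := Measure.pi fun _ : Fin k => stdGaussian E)
    (ν := (volume : Measure (Fin k → ℝ))) hS
  rw [h5] at h6
  have h7 : ∀ X : Fin k → E, volume (Prod.mk X ⁻¹'
      {q : (Fin k → E) × (Fin k → ℝ) | ∀ i, |⟪q.1 i, s⟫ - q.2 i| < ρ}) =
      (ENNReal.ofReal (2 * ρ)) ^ k := fun X => volume_cube (fun i => ⟪X i, s⟫) hρ
  rw [lintegral_congr h7] at h6
  simp only [lintegral_const, measure_univ, mul_one] at h6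
  exact h6.symm

/-- Integrated moment bound. -/
theorem moments_int {k : ℕ} (ν : Measure E) [SFinite ν] (n : ℕ) (D : ℝ≥0∞)
    (hD : ∀ V : Submodule ℝ E, Module.finrank ℝ V < n + 1 →
      ∫⁻ s, ((ENNReal.ofReal ‖Vᗮ.starProjection s‖)⁻¹) ^ k ∂ν ≤ D)
    {ρ : ℝ} (hρ : 0 < ρ) :
    ∫⁻ X : Fin k → E, (∫⁻ y : Fin k → ℝ, (ν {s | ∀ i, |⟪X i, s⟫ - y i| < ρ}) ^ (n + 1))
        ∂(Measure.pi fun _ : Fin k => stdGaussian E) ≤
      ((ENNReal.ofReal (2 * ρ / √(2 * Real.pi))) ^ k * D) ^ n *
        ((ENNReal.ofReal (2 * ρ)) ^ k * ν univ) := by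
  set P : Measure (Fin k → E) := Measure.pi fun _ : Fin k => stdGaussian E with hP
  set c : ℝ≥0∞ := ENNReal.ofReal (2 * ρ / √(2 * Real.pi)) with hc
  have hmeas2 : Measurable fun q : (Fin k → E) × (Fin k → ℝ) =>
      ν {s | ∀ i, |⟪q.1 i, s⟫ - q.2 i| < ρ} := measurable_measure_prodMk_left (measurableSet_obs3 ρ)
  rw [lintegral_lintegral_swap (hmeas2.pow_const (n + 1)).aemeasurable]
  -- for fixed y
  have h1 : ∀ y : Fin k → ℝ, ∫⁻ X, (ν {s | ∀ i, |⟪X i, s⟫ - y i| < ρ}) ^ (n + 1) ∂P ≤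
      ∫⁻ s, (c ^ k * D) ^ n * P {X | ∀ i, |⟪X i, s⟫ - y i| < ρ} ∂ν := by
    intro y
    set G : (Fin k → E) → ℝ≥0∞ := fun X => ν {s | ∀ i, |⟪X i, s⟫ - y i| < ρ} with hG
    set S : Set ((Fin k → E) × E) := {q | ∀ i, |⟪q.1 i, q.2⟫ - y i| < ρ} with hS
    have hSm : MeasurableSet S := measurableSet_obs y ρ
    have hGm : Measurable G := measurable_measure_obs ν y ρ
    have h2 : ∀ X : Fin k → E, G X ^ (n + 1) = ∫⁻ s, S.indicator (fun q => G q.1 ^ n) (X, s) ∂ν := by
      intro X
      have h3 : ∀ s, S.indicator (fun q => G q.1 ^ n) (X, s) =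
          {s | ∀ i, |⟪X i, s⟫ - y i| < ρ}.indicator (fun _ => G X ^ n) s := by
        intro s
        by_cases hs : (X, s) ∈ S
        · have hs' : s ∈ {s | ∀ i, |⟪X i, s⟫ - y i| < ρ} := hs
          rw [indicator_of_mem hs, indicator_of_mem hs']
        · have hs' : s ∉ {s | ∀ i, |⟪X i, s⟫ - y i| < ρ} := hs
          rw [indicator_of_notMem hs, indicator_of_notMem hs']
      have h20 : MeasurableSet {s : E | ∀ i, |⟪X i, s⟫ - y i| < ρ} := measurable_prodMk_left hSm
      rw [lintegral_congr h3, lintegral_indicator h20, setLIntegral_const, pow_succ]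
    change ∫⁻ X, G X ^ (n + 1) ∂P ≤ _
    rw [lintegral_congr h2]
    have hmeas : Measurable (fun q : (Fin k → E) × E => S.indicator (fun q => G q.1 ^ n) q) :=
      Measurable.indicator ((hGm.pow_const n).comp measurable_fst) hSm
    rw [lintegral_lintegral_swap hmeas.aemeasurable]
    refine lintegral_mono fun s => ?_
    have h4 := moments_aux ν (n + 1) D hD y ρ n [s] (by simp [add_comm])
    have h5 : {X : Fin k → E | ∀ i, ∀ u ∈ [s], |⟪X i, u⟫ - y i| < ρ} =
        {X | ∀ i, |⟪X i, s⟫ - y i| < ρ} := by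
      ext X; simp
    rw [h5] at h4
    refine le_trans (le_of_eq (lintegral_congr fun X => ?_)) h4
    by_cases hX : (X, s) ∈ S
    · have hX' : X ∈ {X : Fin k → E | ∀ i, |⟪X i, s⟫ - y i| < ρ} := hX
      rw [indicator_of_mem hX, indicator_of_mem hX']
    · have hX' : X ∉ {X : Fin k → E | ∀ i, |⟪X i, s⟫ - y i| < ρ} := hX
      rw [indicator_of_notMem hX, indicator_of_notMem hX']
  refine (lintegral_mono h1).trans ?_
  have hmeas3 : Measurable fun q : (Fin k → ℝ) × E =>
      P {X | ∀ i, |⟪X i, q.2⟫ - q.1 i| < ρ} := measurable_measure_prodMk_left (measurableSet_obs3' ρ)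
  rw [lintegral_lintegral_swap ((hmeas3.const_mul _).aemeasurable)]
  have h6 : ∀ s : E, ∫⁻ y : Fin k → ℝ, (c ^ k * D) ^ n * P {X | ∀ i, |⟪X i, s⟫ - y i| < ρ} =
      (c ^ k * D) ^ n * (ENNReal.ofReal (2 * ρ)) ^ k := by
    intro s
    have h7 : Measurable fun y : Fin k → ℝ => P {X | ∀ i, |⟪X i, s⟫ - y i| < ρ} :=
      hmeas3.comp (measurable_id.prodMk measurable_const)
    rw [lintegral_const_mul _ h7, lintegral_measure_cube s hρ]
  rw [lintegral_congr h6, lintegral_const]
  rw [mul_assoc]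

/-- Normalised version. -/
theorem moments_int' {k : ℕ} (ν : Measure E) [SFinite ν] (n : ℕ) (D : ℝ≥0∞)
    (hD : ∀ V : Submodule ℝ E, Module.finrank ℝ V < n + 1 →
      ∫⁻ s, ((ENNReal.ofReal ‖Vᗮ.starProjection s‖)⁻¹) ^ k ∂ν ≤ D)
    {ρ : ℝ} (hρ : 0 < ρ) :
    ∫⁻ X : Fin k → E, (∫⁻ y : Fin k → ℝ,
        ((ENNReal.ofReal (2 * ρ))⁻¹ ^ k * ν {s | ∀ i, |⟪X i, s⟫ - y i| < ρ}) ^ (n + 1))
        ∂(Measure.pi fun _ : Fin k => stdGaussian E) ≤
      ((ENNReal.ofReal (1 / √(2 * Real.pi))) ^ k * D) ^ n * ν univ := by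
  set P : Measure (Fin k → E) := Measure.pi fun _ : Fin k => stdGaussian E with hP
  set a : ℝ≥0∞ := ENNReal.ofReal (2 * ρ) with ha
  have ha0 : a ≠ 0 := by
    rw [ha, Ne, ENNReal.ofReal_eq_zero, not_le]
    positivity
  have hat : a ≠ ⊤ := ENNReal.ofReal_ne_top
  have hmeas2 : Measurable fun q : (Fin k → E) × (Fin k → ℝ) =>
      ν {s | ∀ i, |⟪q.1 i, s⟫ - q.2 i| < ρ} := measurable_measure_prodMk_left (measurableSet_obs3 ρ)
  have h1 : ∀ X : Fin k → E, ∫⁻ y : Fin k → ℝ,
      (a⁻¹ ^ k * ν {s | ∀ i, |⟪X i, s⟫ - y i| < ρ}) ^ (n + 1) =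
      (a⁻¹ ^ k) ^ (n + 1) * ∫⁻ y : Fin k → ℝ, (ν {s | ∀ i, |⟪X i, s⟫ - y i| < ρ}) ^ (n + 1) := by
    intro X
    rw [← lintegral_const_mul]
    · refine lintegral_congr fun y => ?_
      rw [mul_pow]
    · exact (hmeas2.comp measurable_prodMk_left).pow_const _
  rw [lintegral_congr h1, lintegral_const_mul _
    (Measurable.lintegral_prod_right' (hmeas2.pow_const (n + 1)))]
  have h2 := moments_int ν n D hD hρ
  have h3 : ENNReal.ofReal (2 * ρ / √(2 * Real.pi)) = a * ENNReal.ofReal (1 / √(2 * Real.pi)) := by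
    rw [ha, ← ENNReal.ofReal_mul (by positivity)]
    congr 1
    ring
  rw [h3] at h2
  set c : ℝ≥0∞ := ENNReal.ofReal (1 / √(2 * Real.pi)) with hc
  have haa : a⁻¹ * a = 1 := ENNReal.inv_mul_cancel ha0 hat
  calc (a⁻¹ ^ k) ^ (n + 1) * ∫⁻ X : Fin k → E, (∫⁻ y : Fin k → ℝ,
        (ν {s | ∀ i, |⟪X i, s⟫ - y i| < ρ}) ^ (n + 1)) ∂P
      ≤ (a⁻¹ ^ k) ^ (n + 1) * (((a * c) ^ k * D) ^ n * (a ^ k * ν univ)) := by gcongr
    _ = ((a⁻¹ * a) ^ k) ^ (n + 1) * ((c ^ k * D) ^ n * ν univ) := by
        simp only [mul_pow, pow_succ]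
        ring
    _ = (c ^ k * D) ^ n * ν univ := by
        rw [haa]; simp

/-- **Core of the block lemma.** -/
theorem block_core {k : ℕ} {J : Type*} [Fintype J] (ν : J → Measure E)
    [∀ j, IsFiniteMeasure (ν j)] (n : ℕ) (D : ℝ≥0∞)
    (hD : ∀ j, ∀ V : Submodule ℝ E, Module.finrank ℝ V < n + 1 →
      ∫⁻ s, ((ENNReal.ofReal ‖Vᗮ.starProjection s‖)⁻¹) ^ k ∂(ν j) ≤ D)
    (m : ℝ≥0∞) (hm : ∀ j, ν j univ ≤ m)
    (F : (Fin k → E) → (Fin k → ℝ) → J)
    (hF : ∀ j, MeasurableSet {p : (Fin k → E) × (Fin k → ℝ) | F p.1 p.2 = j})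
    (Reg : Set ((Fin k → E) × (Fin k → ℝ))) (hReg : MeasurableSet Reg)
    (t : ℝ≥0∞) (ht0 : t ≠ 0) (htt : t ≠ ⊤) :
    ∑ j, ∫⁻ X, ν j {s | F X (fun i => ⟪X i, s⟫) = j ∧ (X, fun i => ⟪X i, s⟫) ∈ Reg}
        ∂(Measure.pi fun _ : Fin k => stdGaussian E) ≤
      t * ∫⁻ X, volume {y : Fin k → ℝ | (X, y) ∈ Reg}
        ∂(Measure.pi fun _ : Fin k => stdGaussian E) +
      (t⁻¹) ^ n * ((Fintype.card J : ℝ≥0∞) *
        (((ENNReal.ofReal (1 / √(2 * Real.pi))) ^ k * D) ^ n * m)) := by
  set P : Measure (Fin k → E) := Measure.pi fun _ : Fin k => stdGaussian E with hP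
  set c : ℝ≥0∞ := ENNReal.ofReal (1 / √(2 * Real.pi)) with hc
  set ρ : ℕ → ℝ := fun N => 1 / ((N : ℝ) + 1) with hρdef
  have hρ : ∀ N, 0 < ρ N := fun N => by positivity
  have hρ0 : Tendsto ρ atTop (𝓝 0) := tendsto_one_div_add_atTop_nhds_zero_nat
  set H : J → ℕ → (Fin k → E) → ℝ≥0∞ := fun j N X => ∫⁻ y : Fin k → ℝ,
        ((ENNReal.ofReal (2 * ρ N))⁻¹ ^ k * ν j {s | ∀ i, |⟪X i, s⟫ - y i| < ρ N}) ^ (n + 1)
    with hH
  have hHm : ∀ j N, Measurable (H j N) := by
    intro j N
    have hmeas2 : Measurable fun q : (Fin k → E) × (Fin k → ℝ) =>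
        ((ENNReal.ofReal (2 * ρ N))⁻¹ ^ k *
          ν j {s | ∀ i, |⟪q.1 i, s⟫ - q.2 i| < ρ N}) ^ (n + 1) :=
      ((measurable_measure_prodMk_left (measurableSet_obs3 (ρ N))).const_mul _).pow_const _
    exact hmeas2.lintegral_prod_right'
  have hobs : ∀ X : Fin k → E, Measurable fun s : E => (fun i => ⟪X i, s⟫ : Fin k → ℝ) := by
    intro X; fun_prop
  -- pointwise bound
  have hpt : ∀ j X, ν j {s | F X (fun i => ⟪X i, s⟫) = j ∧ (X, fun i => ⟪X i, s⟫) ∈ Reg} ≤
      t * volume {y : Fin k → ℝ | F X y = j ∧ (X, y) ∈ Reg} +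
        (t⁻¹) ^ n * liminf (fun N => H j N X) atTop := by
    intro j X
    have hBm : MeasurableSet {y : Fin k → ℝ | F X y = j ∧ (X, y) ∈ Reg} :=
      (measurable_prodMk_left (hF j)).inter (measurable_prodMk_left hReg)
    have h1 := regularity (q := n + 1) (by omega) ((ν j).map (fun s : E => fun i => ⟪X i, s⟫))
      hBm isOpen_univ (subset_univ _) t ht0 htt ρ hρ hρ0
    rw [Measure.map_apply (hobs X) hBm] at h1
    refine h1.trans (le_of_eq ?_)
    rw [Nat.add_sub_cancel]
    congr 2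
    congr 1
    funext N
    rw [Measure.restrict_univ]
    refine lintegral_congr fun y => ?_
    have h2 : MeasurableSet {z : Fin k → ℝ | ∀ i, |z i - y i| < ρ N} := by
      rw [cube_eq_ball y (hρ N)]
      exact Metric.isOpen_ball.measurableSet
    rw [Measure.map_apply (hobs X) h2]
    rfl
  -- sum over the messages
  have hsum : ∀ X, ∑ j, ν j {s | F X (fun i => ⟪X i, s⟫) = j ∧ (X, fun i => ⟪X i, s⟫) ∈ Reg} ≤
      t * volume {y : Fin k → ℝ | (X, y) ∈ Reg} +
        (t⁻¹) ^ n * ∑ j, liminf (fun N => H j N X) atTop := by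
    intro X
    refine (Finset.sum_le_sum fun j _ => hpt j X).trans ?_
    rw [Finset.sum_add_distrib, ← Finset.mul_sum, ← Finset.mul_sum]
    gcongr
    rw [← measure_biUnion_finset]
    · refine measure_mono ?_
      intro y hy
      simp only [mem_iUnion] at hy
      obtain ⟨j, _, hj⟩ := hy
      exact hj.2
    · intro i _ j _ hij
      rw [Function.onFun, Set.disjoint_left]
      rintro y ⟨h1, _⟩ ⟨h2, _⟩
      exact hij (h1.symm.trans h2)
    · intro j _
      exact (measurable_prodMk_left (hF j)).inter (measurable_prodMk_left hReg)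
  have hmeasj : ∀ j, Measurable fun X : Fin k → E =>
      ν j {s | F X (fun i => ⟪X i, s⟫) = j ∧ (X, fun i => ⟪X i, s⟫) ∈ Reg} := by
    intro j
    have hφ : Measurable fun q : (Fin k → E) × E =>
        ((q.1, fun i => ⟪q.1 i, q.2⟫) : (Fin k → E) × (Fin k → ℝ)) := by
      fun_prop
    have hset : MeasurableSet {q : (Fin k → E) × E |
        F q.1 (fun i => ⟪q.1 i, q.2⟫) = j ∧ (q.1, fun i => ⟪q.1 i, q.2⟫) ∈ Reg} :=
      (hφ (hF j)).inter (hφ hReg)
    exact measurable_measure_prodMk_left hset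
  rw [← lintegral_finsetSum _ (fun j _ => hmeasj j)]
  refine (lintegral_mono hsum).trans ?_
  have hvolm : Measurable fun X : Fin k → E => volume {y : Fin k → ℝ | (X, y) ∈ Reg} :=
    measurable_measure_prodMk_left hReg
  have hlim : ∀ j, Measurable fun X => liminf (fun N => H j N X) atTop :=
    fun j => Measurable.liminf (hHm j)
  rw [lintegral_add_left (hvolm.const_mul t), lintegral_const_mul _ hvolm,
    lintegral_const_mul _ (Finset.measurable_sum _ fun j _ => hlim j),
    lintegral_finsetSum _ (fun j _ => hlim j)]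
  gcongr
  calc ∑ j, ∫⁻ X, liminf (fun N => H j N X) atTop ∂P
      ≤ ∑ _j : J, (c ^ k * D) ^ n * m := by
        refine Finset.sum_le_sum fun j _ => ?_
        refine (lintegral_liminf_le (hHm j)).trans ?_
        refine liminf_le_of_le (by isBoundedDefault) ?_
        intro b hb
        obtain ⟨N, hN⟩ := hb.exists
        refine hN.trans ?_
        refine (moments_int' (ν j) n D (hD j) (hρ N)).trans ?_
        gcongr
        exact hm j
    _ = (Fintype.card J : ℝ≥0∞) * ((c ^ k * D) ^ n * m) := by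
        rw [Finset.sum_const, Finset.card_univ, nsmul_eq_mul]

end

end Crest.Agent.R322
end

-- ▼ part R322/BlockCoreE
section

/-!
The core estimates with `Metric.infDist` in `E d` (interface for the block lemma).
-/

open MeasureTheory ProbabilityTheory Set Filter Topology
open scoped ENNReal RealInnerProductSpace NNReal

namespace Crest.Agent.R322

theorem norm_starProjection_orthogonal {E : Type*} [NormedAddCommGroup E] [InnerProductSpace ℝ E]
    [FiniteDimensional ℝ E] (V : Submodule ℝ E) (s : E) :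
    ‖Vᗮ.starProjection s‖ = Metric.infDist s (V : Set E) := by
  have h1 : Vᗮ.starProjection s = s - V.starProjection s := by
    rw [Submodule.starProjection_orthogonal']
    simp
  rw [h1, Submodule.starProjection_minimal, Metric.infDist_eq_iInf]
  simp only [dist_eq_norm]
  rfl


/-- `block_core` in the form asked by the block lemma. -/
theorem block_coreE {d b : ℕ} {J : Type*} [Fintype J] (ν : J → Measure (Crest.StreamLearn.E d))
    (hfin : ∀ j, IsFiniteMeasure (ν j)) (D : ℝ≥0∞) (hb : 1 ≤ b)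
    (hD : ∀ j, ∀ V : Submodule ℝ (Crest.StreamLearn.E d), Module.finrank ℝ V < b →
      ∫⁻ s, ((ENNReal.ofReal (Metric.infDist s (V : Set (Crest.StreamLearn.E d))))⁻¹) ^ b
        ∂(ν j) ≤ D)
    (m : ℝ≥0∞) (hm : ∀ j, ν j univ ≤ m)
    (F : (Fin b → Crest.StreamLearn.E d) → (Fin b → ℝ) → J)
    (hF : ∀ j, MeasurableSet {p : (Fin b → Crest.StreamLearn.E d) × (Fin b → ℝ) | F p.1 p.2 = j})
    (Reg : Set ((Fin b → Crest.StreamLearn.E d) × (Fin b → ℝ))) (hReg : MeasurableSet Reg)
    (t : ℝ≥0∞) (ht0 : t ≠ 0) (htt : t ≠ ⊤) :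
    ∑ j, ∫⁻ X, ν j {s | F X (fun i => inner ℝ (X i) s) = j ∧
        (X, fun i => inner ℝ (X i) s) ∈ Reg} ∂(gam d b) ≤
      t * ∫⁻ X, volume {y : Fin b → ℝ | (X, y) ∈ Reg} ∂(gam d b) +
      (t⁻¹) ^ (b - 1) * ((Fintype.card J : ℝ≥0∞) *
        (((ENNReal.ofReal (1 / √(2 * Real.pi))) ^ b * D) ^ (b - 1) * m)) := by
  obtain ⟨n, rfl⟩ : ∃ n, b = n + 1 := ⟨b - 1, by omega⟩
  have := hfin
  have h := block_core (k := n + 1) ν n D
    (by simpa only [norm_starProjection_orthogonal] using hD) m hm F hF Reg hReg t ht0 htt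
  rw [Nat.add_sub_cancel]
  exact h

end Crest.Agent.R322
end

-- ▼ part R322/OpNorm
section

/-!
R322, part (B) of the Frostman route (helper557): a measurable region containing all the points
`(X, Xs)`, `s ∈ closedBall x0 ρ`, whose measure is at most `5 ^ d * (11 ρ) ^ B`.
-/

set_option autoImplicit false

open MeasureTheory ProbabilityTheory Set Crest.StreamLearn
open scoped ENNReal RealInnerProductSpace NNReal

namespace Crest.Agent.R322

/-- a half-net of the unit ball with at most `5 ^ d` points -/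
lemma exists_half_net (d : ℕ) : ∃ N : Finset (E d), N.card ≤ 5 ^ d ∧ (∀ c ∈ N, ‖c‖ ≤ 1) ∧
    ∀ v : E d, ‖v‖ ≤ 1 → ∃ c ∈ N, ‖v - c‖ ≤ 1 / 2 := by
  classical
  set P : Finset (E d) → Prop := fun S => (∀ c ∈ S, ‖c‖ ≤ 1) ∧
    ∀ c ∈ S, ∀ e ∈ S, c ≠ e → 1 / 2 ≤ ‖c - e‖ with hP
  have hcard : ∀ S, P S → S.card ≤ 5 ^ d := by
    intro S hS
    have hinj : Function.Injective (fun c : E d => (2 : ℝ) • c) := by
      intro a b hab
      have : (2 : ℝ) • a = (2 : ℝ) • b := hab
      exact (smul_right_injective (E d) (two_ne_zero : (2 : ℝ) ≠ 0)) this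
    have h := Besicovitch.card_le_of_separated (S.image fun c : E d => (2 : ℝ) • c) ?_ ?_
    · rw [Finset.card_image_of_injective _ hinj] at h
      simpa using h
    · intro c hc
      obtain ⟨a, ha, rfl⟩ := Finset.mem_image.1 hc
      rw [norm_smul]
      have := hS.1 a ha
      norm_num
      linarith
    · intro c hc e he hce
      obtain ⟨a, ha, rfl⟩ := Finset.mem_image.1 hc
      obtain ⟨b, hb, rfl⟩ := Finset.mem_image.1 he
      have hab : a ≠ b := fun h => hce (by rw [h])
      have := hS.2 a ha b hb hab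
      rw [← smul_sub, norm_smul]
      norm_num
      linarith
  have hex : ∃ S, P S ∧ ∀ S', P S' → S'.card ≤ S.card := by
    set A : Set ℕ := {n | ∃ S, P S ∧ S.card = n} with hA
    have hne : A.Nonempty := ⟨0, ∅, ⟨by simp, by simp⟩, by simp⟩
    have hbdd : BddAbove A := ⟨5 ^ d, by
      rintro n ⟨S, hS, rfl⟩
      exact hcard S hS⟩
    obtain ⟨S, hS, hSn⟩ := Nat.sSup_mem hne hbdd
    refine ⟨S, hS, fun S' hS' => ?_⟩
    rw [hSn]
    exact le_csSup hbdd ⟨S', hS', rfl⟩
  obtain ⟨S, hS, hmax⟩ := hex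
  refine ⟨S, hcard S hS, hS.1, fun v hv => ?_⟩
  by_contra hcon
  push Not at hcon
  have hvS : v ∉ S := by
    intro hvS
    have := hcon v hvS
    simp at this
    linarith
  have hP' : P (insert v S) := by
    refine ⟨?_, ?_⟩
    · intro c hc
      rcases Finset.mem_insert.1 hc with rfl | hc
      · exact hv
      · exact hS.1 c hc
    · intro c hc e he hce
      rcases Finset.mem_insert.1 hc with rfl | hc'
      · rcases Finset.mem_insert.1 he with rfl | he'
        · exact absurd rfl hce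
        · exact (hcon e he').le
      · rcases Finset.mem_insert.1 he with rfl | he'
        · rw [norm_sub_rev]
          exact (hcon c hc').le
        · exact hS.2 c hc' e he' hce
  have := hmax _ hP'
  rw [Finset.card_insert_of_notMem hvS] at this
  omega

/-- the linear map `v ↦ (⟪X i, v⟫)_i` into Euclidean space -/
noncomputable def rowMap {d B : ℕ} (X : Fin B → E d) : E d →L[ℝ] EuclideanSpace ℝ (Fin B) :=
  ((EuclideanSpace.equiv (Fin B) ℝ).symm : (Fin B → ℝ) →L[ℝ] EuclideanSpace ℝ (Fin B)).comp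
    (ContinuousLinearMap.pi fun i => innerSL ℝ (X i))

lemma norm_rowMap_sq {d B : ℕ} (X : Fin B → E d) (v : E d) :
    ‖rowMap X v‖ ^ 2 = ∑ i, (⟪X i, v⟫ : ℝ) ^ 2 := by
  rw [EuclideanSpace.norm_sq_eq]
  refine Finset.sum_congr rfl fun i _ => ?_
  simp [rowMap]

/-- comparison with a net: some net point controls all of the ball. -/
lemma exists_net_ctrl {d B : ℕ} (N : Finset (E d))
    (hN : ∀ v : E d, ‖v‖ ≤ 1 → ∃ c ∈ N, ‖v - c‖ ≤ 1 / 2) (X : Fin B → E d) (ρ : ℝ) (_hρ : 0 < ρ) :
    ∃ c ∈ N, ∀ w : E d, ‖w‖ ≤ ρ →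
      ∑ i, (⟪X i, w⟫ : ℝ) ^ 2 ≤ 4 * ρ ^ 2 * ∑ i, (⟪X i, c⟫ : ℝ) ^ 2 := by
  classical
  have hne : N.Nonempty := by
    obtain ⟨c, hc, -⟩ := hN 0 (by simp)
    exact ⟨c, hc⟩
  obtain ⟨c, hc, hmax⟩ := Finset.exists_max_image N (fun c => ‖rowMap X c‖) hne
  refine ⟨c, hc, fun w hw => ?_⟩
  have hop : ‖rowMap X‖ ≤ 2 * ‖rowMap X c‖ := by
    have h1 : ‖rowMap X‖ ≤ ‖rowMap X‖ / 2 + ‖rowMap X c‖ := by
      refine ContinuousLinearMap.opNorm_le_of_unit_norm (by positivity) fun v hv => ?_
      obtain ⟨e, he, hve⟩ := hN v hv.le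
      calc ‖rowMap X v‖ = ‖rowMap X (v - e) + rowMap X e‖ := by rw [← map_add, sub_add_cancel]
        _ ≤ ‖rowMap X (v - e)‖ + ‖rowMap X e‖ := norm_add_le _ _
        _ ≤ ‖rowMap X‖ * ‖v - e‖ + ‖rowMap X c‖ :=
            add_le_add ((rowMap X).le_opNorm _) (hmax e he)
        _ ≤ ‖rowMap X‖ * (1 / 2) + ‖rowMap X c‖ := by gcongr
        _ = _ := by ring
    linarith
  have h2 : ‖rowMap X w‖ ≤ 2 * ‖rowMap X c‖ * ρ :=
    ((rowMap X).le_opNorm w).trans (by gcongr)
  rw [← norm_rowMap_sq, ← norm_rowMap_sq]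
  calc ‖rowMap X w‖ ^ 2 ≤ (2 * ‖rowMap X c‖ * ρ) ^ 2 := by gcongr
    _ = _ := by ring

/-- product formula for lower integrals over a finite power -/
lemma lintegral_pi_ofReal_prod {α : Type*} [MeasurableSpace α] (μ : Measure α) [SigmaFinite μ]
    {B : ℕ} (f : Fin B → α → ℝ) (hf : ∀ i, Integrable (f i) μ) (h0 : ∀ i x, 0 ≤ f i x) :
    ∫⁻ x, ENNReal.ofReal (∏ i, f i (x i)) ∂(Measure.pi fun _ : Fin B => μ)
      = ∏ i, ENNReal.ofReal (∫ x, f i x ∂μ) := by
  rw [← ofReal_integral_eq_lintegral_ofReal (Integrable.fintype_prod (f := f) hf)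
    (Filter.Eventually.of_forall fun x => Finset.prod_nonneg fun i _ => h0 i _),
    integral_fintype_prod_eq_prod, ENNReal.ofReal_prod_of_nonneg]
  exact fun i _ => integral_nonneg (h0 i)

/-- `E exp(t²/4) ≤ √2` for a centred Gaussian of variance at most one -/
lemma integral_exp_sq_gaussian (v : ℝ≥0) (hv : v ≤ 1) :
    Integrable (fun t : ℝ => Real.exp (t ^ 2 / 4)) (gaussianReal 0 v) ∧
    ∫ t, Real.exp (t ^ 2 / 4) ∂(gaussianReal 0 v) ≤ √2 := by
  rcases eq_or_ne v 0 with rfl | hv0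
  · rw [gaussianReal_zero_var]
    refine ⟨integrable_dirac (by simp), ?_⟩
    rw [integral_dirac]
    simp
  · have hvpos : 0 < (v : ℝ) := by exact_mod_cast (pos_iff_ne_zero.2 hv0)
    have hv1 : (v : ℝ) ≤ 1 := by exact_mod_cast hv
    set b : ℝ := 1 / (2 * v) - 1 / 4 with hb
    have hbpos : 0 < b := by
      rw [hb]
      have : 1 / 2 ≤ 1 / (2 * (v : ℝ)) := by
        apply one_div_le_one_div_of_le (by positivity)
        linarith
      linarith
    have hpdf : ∀ t : ℝ, gaussianPDFReal 0 v t * Real.exp (t ^ 2 / 4)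
        = (√(2 * Real.pi * v))⁻¹ * Real.exp (-b * t ^ 2) := by
      intro t
      rw [gaussianPDFReal, mul_assoc, ← Real.exp_add]
      congr 2
      rw [hb]
      field_simp
      ring
    have hint : Integrable (fun t : ℝ => gaussianPDFReal 0 v t * Real.exp (t ^ 2 / 4)) := by
      simp_rw [hpdf]
      exact (integrable_exp_neg_mul_sq hbpos).const_mul _
    refine ⟨?_, ?_⟩
    · rw [gaussianReal_of_var_ne_zero _ hv0]
      rw [integrable_withDensity_iff_integrable_smul₀' (by fun_prop)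
        (Filter.Eventually.of_forall fun x => by simp [gaussianPDF])]
      refine hint.congr (Filter.Eventually.of_forall fun t => ?_)
      simp [gaussianPDF, gaussianPDFReal_nonneg]
    · rw [integral_gaussianReal_eq_integral_smul hv0]
      simp_rw [smul_eq_mul, hpdf]
      rw [integral_const_mul, integral_gaussian]
      rw [← Real.sqrt_inv, ← Real.sqrt_mul (by positivity)]
      apply Real.sqrt_le_sqrt
      rw [hb]
      have hpi := Real.pi_pos
      have h4 : 1 / (2 * (v : ℝ)) - 1 / 4 = (2 - v) / (4 * v) := by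
        field_simp
        ring
      rw [h4]
      have h2v : 0 < 2 - (v : ℝ) := by linarith
      have : (2 * Real.pi * (v : ℝ))⁻¹ * (Real.pi / ((2 - v) / (4 * v))) = 2 / (2 - v) := by
        field_simp
        ring
      rw [this, div_le_iff₀ h2v]
      linarith


/-- the elementary region attached to one net point -/
def regOne {d B : ℕ} (x0 : E d) (ρ : ℝ) (c : E d) : Set ((Fin B → E d) × (Fin B → ℝ)) :=
  {p | ∑ i, (p.2 i - ⟪p.1 i, x0⟫) ^ 2 ≤ 4 * ρ ^ 2 * ∑ i, (⟪p.1 i, c⟫ : ℝ) ^ 2}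

lemma measurable_inner_coord {d B : ℕ} (i : Fin B) (c : E d) :
    Measurable fun p : (Fin B → E d) × (Fin B → ℝ) => (⟪p.1 i, c⟫ : ℝ) := by
  have h : Continuous fun p : (Fin B → E d) × (Fin B → ℝ) => (⟪p.1 i, c⟫ : ℝ) := by fun_prop
  exact h.measurable

lemma measurableSet_regOne {d B : ℕ} (x0 : E d) (ρ : ℝ) (c : E d) :
    MeasurableSet (regOne x0 ρ c : Set ((Fin B → E d) × (Fin B → ℝ))) := by
  refine measurableSet_le ?_ ?_
  · refine Finset.measurable_sum _ fun i _ => ?_
    exact (((measurable_pi_apply i).comp measurable_snd).sub (measurable_inner_coord i x0)).pow_const 2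
  · refine Measurable.const_mul ?_ _
    refine Finset.measurable_sum _ fun i _ => ?_
    exact (measurable_inner_coord i c).pow_const 2

/-- exponential moment of the sum of squares -/
lemma lintegral_exp_sumsq {d B : ℕ} (c : E d) (hc : ‖c‖ ≤ 1) :
    ∫⁻ X, ENNReal.ofReal (∏ i, Real.exp ((⟪X i, c⟫ : ℝ) ^ 2 / 4)) ∂(gam d B)
      ≤ ENNReal.ofReal (√2 ^ B) := by
  have hmap := map_inner_stdGaussian (E := E d) c
  have hv : (‖c‖₊ ^ 2 : ℝ≥0) ≤ 1 := by
    have : ‖c‖₊ ≤ 1 := by exact_mod_cast hc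
    exact pow_le_one' this 2
  obtain ⟨hint, hle⟩ := integral_exp_sq_gaussian (‖c‖₊ ^ 2) hv
  have hmeas : Measurable (fun x : E d => (⟪c, x⟫ : ℝ)) := by
    have : Continuous fun x : E d => (⟪c, x⟫ : ℝ) := by fun_prop
    exact this.measurable
  have hint' : Integrable (fun x : E d => Real.exp ((⟪x, c⟫ : ℝ) ^ 2 / 4)) (stdGaussian (E d)) := by
    have h := (hmap ▸ hint : Integrable (fun t : ℝ => Real.exp (t ^ 2 / 4))
      ((stdGaussian (E d)).map (fun x => ⟪c, x⟫)))
    have h2 := h.comp_measurable hmeas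
    refine h2.congr (Filter.Eventually.of_forall fun x => ?_)
    simp [Function.comp, real_inner_comm]
  have heq : ∫ x, Real.exp ((⟪x, c⟫ : ℝ) ^ 2 / 4) ∂(stdGaussian (E d))
      = ∫ t, Real.exp (t ^ 2 / 4) ∂(gaussianReal 0 (‖c‖₊ ^ 2)) := by
    rw [← hmap, integral_map hmeas.aemeasurable]
    · simp_rw [real_inner_comm]
    · exact (by fun_prop : Continuous fun t : ℝ => Real.exp (t ^ 2 / 4)).aestronglyMeasurable
  rw [gam, lintegral_pi_ofReal_prod (stdGaussian (E d))
    (fun _ x => Real.exp ((⟪x, c⟫ : ℝ) ^ 2 / 4)) (fun _ => hint') (fun _ _ => (Real.exp_pos _).le)]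
  rw [Finset.prod_const, Finset.card_univ, Fintype.card_fin, ← ENNReal.ofReal_pow
    (integral_nonneg fun _ => (Real.exp_pos _).le)]
  refine ENNReal.ofReal_le_ofReal ?_
  refine pow_le_pow_left₀ (integral_nonneg fun _ => (Real.exp_pos _).le) ?_ _
  rw [heq]
  exact hle

/-- Lebesgue integral of the Gaussian weight in `y` -/
lemma lintegral_exp_y {B : ℕ} (a : Fin B → ℝ) (ρ : ℝ) (hρ : 0 < ρ) :
    ∫⁻ y : Fin B → ℝ, ENNReal.ofReal (∏ i, Real.exp (-(y i - a i) ^ 2 / (16 * ρ ^ 2)))
      = ENNReal.ofReal ((4 * √Real.pi * ρ) ^ B) := by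
  have hb : 0 < 1 / (16 * ρ ^ 2) := by positivity
  have hfun : ∀ i, (fun t : ℝ => Real.exp (-(t - a i) ^ 2 / (16 * ρ ^ 2)))
      = fun t : ℝ => (fun s : ℝ => Real.exp (-(1 / (16 * ρ ^ 2)) * s ^ 2)) (t - a i) := by
    intro i
    ext t
    simp only
    congr 1
    ring
  have hint : ∀ i, Integrable (fun t : ℝ => Real.exp (-(t - a i) ^ 2 / (16 * ρ ^ 2))) := by
    intro i
    rw [hfun i]
    exact (integrable_exp_neg_mul_sq hb).comp_sub_right (a i)
  have hval : ∀ i, ∫ t : ℝ, Real.exp (-(t - a i) ^ 2 / (16 * ρ ^ 2)) = 4 * √Real.pi * ρ := by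
    intro i
    rw [hfun i, integral_sub_right_eq_self (fun s : ℝ => Real.exp (-(1 / (16 * ρ ^ 2)) * s ^ 2)),
      integral_gaussian]
    have : Real.pi / (1 / (16 * ρ ^ 2)) = (4 * ρ) ^ 2 * Real.pi := by
      field_simp
      ring
    rw [this, Real.sqrt_mul (by positivity), Real.sqrt_sq (by positivity)]
    ring
  rw [volume_pi, lintegral_pi_ofReal_prod volume
    (fun i t => Real.exp (-(t - a i) ^ 2 / (16 * ρ ^ 2))) hint (fun _ _ => (Real.exp_pos _).le)]
  simp_rw [hval]
  rw [Finset.prod_const, Finset.card_univ, Fintype.card_fin, ← ENNReal.ofReal_pow (by positivity)]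

lemma measure_regOne_le {d B : ℕ} (x0 : E d) (ρ : ℝ) (hρ : 0 < ρ) (c : E d) (hc : ‖c‖ ≤ 1) :
    ((gam d B).prod (volume : Measure (Fin B → ℝ))) (regOne x0 ρ c)
      ≤ ENNReal.ofReal ((11 * ρ) ^ B) := by
  have hprob : IsProbabilityMeasure (gam d B) := by unfold gam; infer_instance
  have hpt : ∀ p : (Fin B → E d) × (Fin B → ℝ),
      (regOne x0 ρ c).indicator (fun _ => (1 : ℝ≥0∞)) p
        ≤ ENNReal.ofReal (∏ i, Real.exp ((⟪p.1 i, c⟫ : ℝ) ^ 2 / 4)) *
          ENNReal.ofReal (∏ i, Real.exp (-(p.2 i - ⟪p.1 i, x0⟫) ^ 2 / (16 * ρ ^ 2))) := by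
    intro p
    by_cases hp : p ∈ regOne x0 ρ c
    · rw [Set.indicator_of_mem hp, ← ENNReal.ofReal_mul
        (Finset.prod_nonneg fun _ _ => (Real.exp_pos _).le), ← Real.exp_sum, ← Real.exp_sum,
        ← Real.exp_add]
      rw [← ENNReal.ofReal_one]
      refine ENNReal.ofReal_le_ofReal (Real.one_le_exp ?_)
      have h : ∑ i, (p.2 i - ⟪p.1 i, x0⟫) ^ 2 ≤ 4 * ρ ^ 2 * ∑ i, (⟪p.1 i, c⟫ : ℝ) ^ 2 := hp
      have e1 : ∑ i, (⟪p.1 i, c⟫ : ℝ) ^ 2 / 4 = (∑ i, (⟪p.1 i, c⟫ : ℝ) ^ 2) / 4 :=
        (Finset.sum_div _ _ _).symm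
      have e2 : ∑ i, -(p.2 i - ⟪p.1 i, x0⟫) ^ 2 / (16 * ρ ^ 2)
          = -((∑ i, (p.2 i - ⟪p.1 i, x0⟫) ^ 2) / (16 * ρ ^ 2)) := by
        rw [Finset.sum_div, ← Finset.sum_neg_distrib]
        refine Finset.sum_congr rfl fun i _ => ?_
        ring
      rw [e1, e2]
      have h3 : (∑ i, (p.2 i - ⟪p.1 i, x0⟫) ^ 2) / (16 * ρ ^ 2)
          ≤ (4 * ρ ^ 2 * ∑ i, (⟪p.1 i, c⟫ : ℝ) ^ 2) / (16 * ρ ^ 2) := by gcongr
      have h4 : (4 * ρ ^ 2 * ∑ i, (⟪p.1 i, c⟫ : ℝ) ^ 2) / (16 * ρ ^ 2)
          = (∑ i, (⟪p.1 i, c⟫ : ℝ) ^ 2) / 4 := by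
        field_simp
        ring
      linarith
    · rw [Set.indicator_of_notMem hp]
      exact zero_le
  calc ((gam d B).prod (volume : Measure (Fin B → ℝ))) (regOne x0 ρ c)
      = ∫⁻ p, (regOne x0 ρ c).indicator (fun _ => (1 : ℝ≥0∞)) p
          ∂((gam d B).prod (volume : Measure (Fin B → ℝ))) := by
        rw [lintegral_indicator (measurableSet_regOne x0 ρ c)]
        simp
    _ ≤ ∫⁻ p, ENNReal.ofReal (∏ i, Real.exp ((⟪p.1 i, c⟫ : ℝ) ^ 2 / 4)) *
          ENNReal.ofReal (∏ i, Real.exp (-(p.2 i - ⟪p.1 i, x0⟫) ^ 2 / (16 * ρ ^ 2)))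
          ∂((gam d B).prod (volume : Measure (Fin B → ℝ))) := lintegral_mono hpt
    _ = ∫⁻ X : Fin B → E d, (∫⁻ y : Fin B → ℝ,
          ENNReal.ofReal (∏ i, Real.exp ((⟪X i, c⟫ : ℝ) ^ 2 / 4)) *
          ENNReal.ofReal (∏ i, Real.exp (-(y i - ⟪X i, x0⟫) ^ 2 / (16 * ρ ^ 2))) ∂volume)
          ∂(gam d B) := by
        rw [lintegral_prod]
        refine Measurable.aemeasurable ?_
        have h1 : Continuous fun p : (Fin B → E d) × (Fin B → ℝ) =>
            ∏ i, Real.exp ((⟪p.1 i, c⟫ : ℝ) ^ 2 / 4) := by fun_prop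
        have h2 : Continuous fun p : (Fin B → E d) × (Fin B → ℝ) =>
            ∏ i, Real.exp (-(p.2 i - ⟪p.1 i, x0⟫) ^ 2 / (16 * ρ ^ 2)) := by fun_prop
        exact h1.measurable.ennreal_ofReal.mul h2.measurable.ennreal_ofReal
    _ = ∫⁻ X : Fin B → E d, ENNReal.ofReal (∏ i, Real.exp ((⟪X i, c⟫ : ℝ) ^ 2 / 4)) *
          ENNReal.ofReal ((4 * √Real.pi * ρ) ^ B) ∂(gam d B) := by
        refine lintegral_congr fun X => ?_
        rw [lintegral_const_mul']
        · rw [lintegral_exp_y (fun i => (⟪X i, x0⟫ : ℝ)) ρ hρ]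
        · exact ENNReal.ofReal_ne_top
    _ = (∫⁻ X, ENNReal.ofReal (∏ i, Real.exp ((⟪X i, c⟫ : ℝ) ^ 2 / 4)) ∂(gam d B)) *
          ENNReal.ofReal ((4 * √Real.pi * ρ) ^ B) := by
        rw [lintegral_mul_const' _ _ ENNReal.ofReal_ne_top]
    _ ≤ ENNReal.ofReal (√2 ^ B) * ENNReal.ofReal ((4 * √Real.pi * ρ) ^ B) := by
        gcongr
        exact lintegral_exp_sumsq c hc
    _ = ENNReal.ofReal ((√2 * (4 * √Real.pi * ρ)) ^ B) := by
        rw [← ENNReal.ofReal_mul (by positivity), ← mul_pow]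
    _ ≤ ENNReal.ofReal ((11 * ρ) ^ B) := by
        refine ENNReal.ofReal_le_ofReal (pow_le_pow_left₀ (by positivity) ?_ _)
        have h1 : √2 * √Real.pi ≤ 11 / 4 := by
          rw [← Real.sqrt_mul (by norm_num)]
          apply Real.sqrt_le_iff.2
          refine ⟨by norm_num, ?_⟩
          have := Real.pi_lt_d2
          norm_num
          linarith
        calc √2 * (4 * √Real.pi * ρ) = 4 * ρ * (√2 * √Real.pi) := by ring
          _ ≤ 4 * ρ * (11 / 4) := by gcongr
          _ = 11 * ρ := by ring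

/-- (B) A measurable region of measure `≤ 5 ^ d (11 ρ) ^ B` containing `(X, Xs)` for all `s` in
the closed ball. -/
theorem exists_region (d B : ℕ) (x0 : E d) (ρ : ℝ) (hρ : 0 < ρ) :
    ∃ Reg : Set ((Fin B → E d) × (Fin B → ℝ)), MeasurableSet Reg ∧
      (∀ (X : Fin B → E d) (s : E d), s ∈ Metric.closedBall x0 ρ →
        (X, fun i => (inner ℝ (X i) s : ℝ)) ∈ Reg) ∧
      ((gam d B).prod (volume : Measure (Fin B → ℝ))) Reg
        ≤ ENNReal.ofReal (5 ^ d * (11 * ρ) ^ B) := by
  classical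
  obtain ⟨N, hcard, hN1, hN⟩ := exists_half_net d
  refine ⟨⋃ c ∈ N, regOne x0 ρ c, ?_, ?_, ?_⟩
  · exact Finset.measurableSet_biUnion _ fun c _ => measurableSet_regOne x0 ρ c
  · intro X s hs
    obtain ⟨c, hc, hctrl⟩ := exists_net_ctrl N hN X ρ hρ
    refine Set.mem_iUnion₂.2 ⟨c, hc, ?_⟩
    have hsn : ‖s - x0‖ ≤ ρ := by
      rw [← dist_eq_norm]
      exact Metric.mem_closedBall.1 hs
    have h := hctrl (s - x0) hsn
    simp only [inner_sub_right] at h
    exact h
  · calc ((gam d B).prod (volume : Measure (Fin B → ℝ))) (⋃ c ∈ N, regOne x0 ρ c)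
        ≤ ∑ c ∈ N, ((gam d B).prod (volume : Measure (Fin B → ℝ))) (regOne x0 ρ c) :=
          measure_biUnion_finset_le _ _
      _ ≤ ∑ _c ∈ N, ENNReal.ofReal ((11 * ρ) ^ B) :=
          Finset.sum_le_sum fun c hc => measure_regOne_le x0 ρ hρ c (hN1 c hc)
      _ = (N.card : ℝ≥0∞) * ENNReal.ofReal ((11 * ρ) ^ B) := by
          rw [Finset.sum_const, nsmul_eq_mul]
      _ ≤ ENNReal.ofReal (5 ^ d) * ENNReal.ofReal ((11 * ρ) ^ B) := by
          gcongr
          rw [← ENNReal.ofReal_natCast]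
          refine ENNReal.ofReal_le_ofReal ?_
          exact_mod_cast hcard
      _ = ENNReal.ofReal (5 ^ d * (11 * ρ) ^ B) := by
          rw [← ENNReal.ofReal_mul (by positivity)]

end Crest.Agent.R322
end

-- ▼ part R322/Fr/Block

set_option autoImplicit false
open MeasureTheory Metric Set
open scoped ENNReal NNReal

namespace Crest.Agent.R322.Fr

open Crest.StreamLearn

theorem coreStmt : CoreStmt := by
  intro d k hk J _ μ hfin D m t ht0 htt hD hm F hF R hR
  refine (block_coreE μ hfin D hk hD m hm F hF R hR t ht0 htt).trans ?_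
  have h1 : ((gam d k).prod (volume : Measure (Fin k → ℝ))) R =
      ∫⁻ X, volume {y : Fin k → ℝ | (X, y) ∈ R} ∂(gam d k) := by
    rw [Measure.prod_apply hR]
    rfl
  rw [h1]
  refine add_le_add le_rfl ?_
  have h2 : ENNReal.ofReal (1 / √(2 * Real.pi)) ^ k ≤ 1 := by
    apply pow_le_one₀ (by simp)
    rw [ENNReal.ofReal_le_one]
    have h3 : (1 : ℝ) ≤ √(2 * Real.pi) := by
      rw [Real.one_le_sqrt]
      have := Real.pi_gt_three
      linarith
    exact (div_le_one (by linarith)).2 h3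
  calc (t⁻¹) ^ (k - 1) * ((Fintype.card J : ℝ≥0∞) *
        (((ENNReal.ofReal (1 / √(2 * Real.pi))) ^ k * D) ^ (k - 1) * m))
      ≤ (t⁻¹) ^ (k - 1) * ((Fintype.card J : ℝ≥0∞) * ((1 * D) ^ (k - 1) * m)) := by gcongr
    _ = _ := by rw [one_mul]; ring

theorem regionStmt : RegionStmt := by
  refine ⟨55, by norm_num, 8, ?_⟩
  intro d hd x r hr
  obtain ⟨R, h1, h2, h3⟩ := exists_region d (bl d) x r hr
  refine ⟨R, h1, h2, h3.trans ?_⟩
  have hb : bl d ≤ d := by unfold bl; omega
  rw [← ENNReal.ofReal_pow (by norm_num), ← ENNReal.ofReal_pow hr.le,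
    ← ENNReal.ofReal_mul (by positivity)]
  apply ENNReal.ofReal_le_ofReal
  calc (5 : ℝ) ^ d * (11 * r) ^ (bl d) = 5 ^ d * 11 ^ (bl d) * r ^ (bl d) := by rw [mul_pow]; ring
    _ ≤ 5 ^ d * 11 ^ d * r ^ (bl d) := by gcongr; norm_num
    _ = 55 ^ d * r ^ (bl d) := by rw [← mul_pow]; norm_num

/-- the BLOCK LEMMA -/
theorem blockLemma : BlockLemma := blockLemma_of regionStmt coreStmt

end Crest.Agent.R322.Fr
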